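import Vale.Agent.P273.H339.Node
import Vale.Agent.P273.H730.One1

/-!
# P273, row 4, Link1 NECK: the form consumed by `NeckF`
-/

namespace Vale.Agent.P273.H339

open scoped ContDiff Topology
open Set Filter Complex Metric
open Vale.Agent.P273.H214 (Bs ff FlatOn)
open Vale.Agent.P273.H598 (NB bb)
open Vale.Agent.P273.H730 (bd bw xn nv)

noncomputable section

variable {k : Fin 5} {V : Set (Fin 6 → ℂ)} {ρ : ℝ} {O : Set Bs}

theorem bn_eq (k : Fin 5) (p : En) : bn k p = bd k p.1.1 (dn p) := rfl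

theorem xp_eq (k : Fin 5) (p : En) : xp k p = xn k p.1.1 (Xn p) (Yn p) := rfl

/-- the differential of the chart -/
theorem psn_fderiv (k : Fin 5) (p : En) (δ : Fin 6 → ℂ) (lX lY : ℂ) :
    fderiv ℝ (psn k) p ((δ, (lX + lY) / 2), (lX - lY) / 2) =
      nv k δ (dn p) (Xn p) (Yn p) lX lY := by
  set v : En := ((δ, (lX + lY) / 2), (lX - lY) / 2) with hv
  have hγ : HasDerivAt (fun r : ℝ => p + r • v) v 0 := by
    have h1 := ((hasDerivAt_id (0 : ℝ)).smul_const v).const_add p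
    simpa using h1
  have h0 : p + (0 : ℝ) • v = p := by rw [zero_smul, add_zero]
  have hf : HasFDerivAt (psn k) (fderiv ℝ (psn k) p) (p + (0 : ℝ) • v) := by
    rw [h0]
    exact ((contDiff_psn k).contDiffAt.differentiableAt (by simp)).hasFDerivAt
  have h1 := hf.comp_hasDerivAt (0 : ℝ) hγ
  have line : ∀ a b : ℂ, HasDerivAt (fun r : ℝ => cexp (a + r • b)) (cexp a * b) 0 := by
    intro a b
    have g1 : HasDerivAt (fun r : ℝ => a + r • b) b 0 := by
      have := ((hasDerivAt_id (0 : ℝ)).smul_const b).const_add a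
      simpa using this
    have g2 := g1.cexp
    simpa using g2
  have hd : HasDerivAt (fun r : ℝ => dn (p + r • v)) (dn p * ((lX + lY) / 2)) 0 :=
    line p.1.2 ((lX + lY) / 2)
  have hX : HasDerivAt (fun r : ℝ => Xn (p + r • v)) (Xn p * lX) 0 := by
    have g := line (p.1.2 + p.2) lX
    have e : (fun r : ℝ => Xn (p + r • v)) = fun r : ℝ => cexp (p.1.2 + p.2 + r • lX) := by
      funext r
      show cexp (p.1.2 + r • ((lX + lY) / 2) + (p.2 + r • ((lX - lY) / 2))) = _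
      congr 1
      rw [Complex.real_smul, Complex.real_smul, Complex.real_smul]
      ring
    rw [e]
    exact g
  have hY : HasDerivAt (fun r : ℝ => Yn (p + r • v)) (Yn p * lY) 0 := by
    have g := line (p.1.2 - p.2) lY
    have e : (fun r : ℝ => Yn (p + r • v)) = fun r : ℝ => cexp (p.1.2 - p.2 + r • lY) := by
      funext r
      show cexp (p.1.2 + r • ((lX + lY) / 2) - (p.2 + r • ((lX - lY) / 2))) = _
      congr 1
      rw [Complex.real_smul, Complex.real_smul, Complex.real_smul]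
      ring
    rw [e]
    exact g
  have hq : ∀ j : Fin 6, HasDerivAt (fun r : ℝ => (p + r • v).1.1 j) (δ j) 0 := by
    intro j
    have := ((hasDerivAt_id (0 : ℝ)).smul_const (δ j)).const_add (p.1.1 j)
    simpa using this
  have hx : HasDerivAt (fun r : ℝ => xp k (p + r • v))
      (δ k.castSucc + (Xn p * lX + Yn p * lY) / 2) 0 := (hq _).add ((hX.add hY).div_const 2)
  have hb : HasDerivAt (fun r : ℝ => bn k (p + r • v))
      (bw k δ (dn p) ((lX + lY) / 2)) 0 := by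
    refine hasDerivAt_pi.2 fun j => ?_
    unfold bn bb bw H828.pr
    by_cases h2 : j = k.castSucc
    · simp only [h2, if_true]
      exact (hq _).sub hd
    · by_cases h3 : j = k.succ
      · have h4 : ¬ k.succ = k.castSucc := by rw [← h3]; exact h2
        simp only [h3, h4, if_true, if_false]
        exact (hq _).add hd
      · simp only [h2, h3, if_false]
        exact hq j
  exact h1.unique (hb.prodMk hx)

/-- **the form in a neck in the language of One1**, at a point of the model -/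
theorem eta_nv (h : NB k V ρ) {η : Bs → ℂ → ℂ → (Bs × ℂ →L[ℝ] ℝ)}
    {A : Bs → (ℂ × ℂ →L[ℝ] ℝ)} (hF : FlatOn O η A) {p : En} (hp : p ∈ Omn k V ρ O)
    (δ : Fin 6 → ℂ) (lX lY : ℂ) :
    η (bd k p.1.1 (dn p)) (xn k p.1.1 (Xn p) (Yn p)) (vn k p)
      (nv k δ (dn p) (Xn p) (Yn p) lX lY) =
      fderiv ℝ (Un A k ρ) p ((δ, (lX + lY) / 2), (lX - lY) / 2) := by
  rw [← node_eq h hF hp, pbe_apply, psn_fderiv]
  rfl

theorem exists_model {d X Y : ℂ} (hd : d ≠ 0) (hXY : X * Y = d ^ 2) (q : Fin 6 → ℂ) :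
    ∃ p : En, p.1.1 = q ∧ dn p = d ∧ Xn p = X ∧ Yn p = Y := by
  have hX : X ≠ 0 := by
    intro h
    rw [h, zero_mul] at hXY
    exact pow_ne_zero 2 hd hXY.symm
  refine ⟨((q, Complex.log d), Complex.log (X / d)), rfl, Complex.exp_log hd, ?_, ?_⟩
  · unfold Xn
    rw [Complex.exp_add, Complex.exp_log hd, Complex.exp_log (div_ne_zero hX hd)]
    field_simp
  · unfold Yn
    rw [Complex.exp_sub, Complex.exp_log hd, Complex.exp_log (div_ne_zero hX hd)]
    field_simp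
    linear_combination -hXY

/-- every root at a point of the model is `± vn` -/
theorem eta_abs (h : NB k V ρ) {η : Bs → ℂ → ℂ → (Bs × ℂ →L[ℝ] ℝ)}
    {A : Bs → (ℂ × ℂ →L[ℝ] ℝ)} (hF : FlatOn O η A) {p : En} (h1 : p.1.1 ∈ V)
    (h2 : bd k p.1.1 (dn p) ∈ O) (h3 : ‖Xn p‖ < ρ) (h4 : ‖Yn p‖ < ρ) {v : ℂ}
    (hv : v ^ 2 = ff (bd k p.1.1 (dn p), xn k p.1.1 (Xn p) (Yn p))) (hv0 : v ≠ 0)
    (δ : Fin 6 → ℂ) (lX lY : ℂ) :
    p ∈ Omn k V ρ O ∧
    |η (bd k p.1.1 (dn p)) (xn k p.1.1 (Xn p) (Yn p)) v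
      (nv k δ (dn p) (Xn p) (Yn p) lX lY)| =
      |fderiv ℝ (Un A k ρ) p ((δ, (lX + lY) / 2), (lX - lY) / 2)| := by
  have e1 : v ^ 2 = vn k p ^ 2 := by rw [vn_sq]; exact hv
  have hne : Xn p ≠ Yn p := by
    intro h5
    apply hv0
    have e2 : vn k p = 0 := by
      unfold vn
      rw [h5, sub_self, zero_div, mul_zero]
    rw [e2] at e1
    simpa using e1
  have hp : p ∈ Omn k V ρ O := ⟨h1, h2, h3, h4, hne⟩
  refine ⟨hp, ?_⟩
  rw [← eta_nv h hF hp]
  rcases sq_eq_sq_iff_eq_or_eq_neg.1 e1 with h5 | h5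
  · rw [h5]
  · rw [h5, hF.odd, neg_apply, abs_neg]

/-- **the neck form, all data given** -/
theorem eta_node (h : NB k V ρ) {η : Bs → ℂ → ℂ → (Bs × ℂ →L[ℝ] ℝ)}
    {A : Bs → (ℂ × ℂ →L[ℝ] ℝ)} (hF : FlatOn O η A) {q : Fin 6 → ℂ} {d X Y v : ℂ}
    (hq : q ∈ V) (hd : d ≠ 0) (hb : bd k q d ∈ O) (hXY : X * Y = d ^ 2) (hX : ‖X‖ < ρ)
    (hY : ‖Y‖ < ρ) (hv : v ^ 2 = ff (bd k q d, xn k q X Y)) (hv0 : v ≠ 0) :
    ∃ p : En, p.1.1 = q ∧ dn p = d ∧ Xn p = X ∧ Yn p = Y ∧ p ∈ Omn k V ρ O ∧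
      ∀ (δ : Fin 6 → ℂ) (lX lY : ℂ), |η (bd k q d) (xn k q X Y) v (nv k δ d X Y lX lY)| =
        |fderiv ℝ (Un A k ρ) p ((δ, (lX + lY) / 2), (lX - lY) / 2)| := by
  obtain ⟨p, h1, h2, h3, h4⟩ := exists_model hd hXY q
  subst h1 h2 h3 h4
  exact ⟨p, rfl, rfl, rfl, rfl, (eta_abs h hF hq hb hX hY hv hv0 0 0 0).1,
    fun δ lX lY => (eta_abs h hF hq hb hX hY hv hv0 δ lX lY).2⟩

end

end Vale.Agent.P273.H339
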