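import Vale.Agent.P273.H339.ULeg
import Vale.Agent.P273.H908.IdF
import Vale.Agent.P273.H517.U0

/-!
# P273, row (U), necks: the flat gauge `theFlatFam` and the explicit potentials of `u0`
-/

namespace Vale.Agent.P273.H339

open scoped ContDiff Topology
open Set Filter Complex
open Vale.Agent.P273.H630 (D0 ysh)
open Vale.Agent.P273.H562 (Co Adm)
open Vale.Agent.P273.H95 (IsCl L)
open Vale.Agent.P273.H132 (UNp lgU lgU_neck)
open Vale.Agent.P273.H580 (theFlatFam)
open Vale.Agent.P273.H517 (u0)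

noncomputable section

/-- the flat gauge has the explicit coefficients near theta -/
theorem coefOK_flat : ∃ N : ℝ, CoefOK theFlatFam N := by
  obtain ⟨N, _, hN⟩ := H908.exists_theta'
  refine ⟨N, coefOK_of fun ξ hξ y α hy hα u v => ?_⟩
  exact ((hN y α (fun k => (hy k).le) hα).2.2 ξ hξ).1 u v

/-- **(U) on the necks**: the flat gauge pulled back to the region charts is the derivative of the
explicit potential -/
theorem lgF_flat : ∃ N₀ : ℝ, 1 ≤ N₀ ∧
    ∀ (R : H95.Region) (m : ∀ k, Fin (R.n k + 1)) (S : L → Bool) (p : Co R m),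
    Adm R m S N₀ p → ∀ ξ, IsCl ξ → ∀ (j : L) (k : Fin 3) (h : R.pl j = Sum.inl k),
    ContDiffAt ℝ ∞ (UNp m u0 ξ h) p ∧
      lgF theFlatFam R m S j ξ p = fderiv ℝ (UNp m u0 ξ h) p ∧
      lgF theFlatFam R m S j ξ p = lgU u0 R m S j ξ p := by
  obtain ⟨N, hN⟩ := coefOK_flat
  obtain ⟨N₀, h1, h2⟩ := lgF_neck hN
  refine ⟨N₀, h1, fun R m S p hp ξ hξ j k h => ?_⟩
  obtain ⟨h3, h4⟩ := h2 u0 rfl (fun _ => rfl) R m S p hp ξ hξ j k h
  exact ⟨h3, h4, h4.trans (lgU_neck u0 R m S h ξ p).symm⟩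

end

end Vale.Agent.P273.H339
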