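import Vale.Agent.P273.H214.Gauge
import Vale.Agent.P273.H722.Vert

/-!
# P273, row (U): the pull-back of a flat form to a chart

`ψ : E → Bs × ℂ` (roots and point), `yy : E → ℂ` the sheet.  The pull-back `pbe η ψ yy` of a flat
form `η` is differentiable and closed at every point where `yy` is a continuous non-zero square root.
-/

namespace Vale.Agent.P273.H339

open scoped ContDiff Topology
open Set Filter
open Vale.Agent.P273.H214

noncomputable section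

variable {E : Type*} [NormedAddCommGroup E] [NormedSpace ℝ E]
variable {H : Type*} [NormedAddCommGroup H] [NormedSpace ℝ H]

theorem two_le : (2 : WithTop ℕ∞) ≤ ∞ := WithTop.coe_le_coe.2 le_top

theorem one_add_one_le : (1 + 1 : WithTop ℕ∞) ≤ ∞ := by
  have h : (1 + 1 : WithTop ℕ∞) = 2 := by norm_num
  rw [h]
  exact two_le

/-- the pull-back of the form `η` to the chart -/
def pbe (η : Bs → ℂ → ℂ → (Bs × ℂ →L[ℝ] H)) (ψ : E → Bs × ℂ) (yy : E → ℂ) (q : E) : E →L[ℝ] H :=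
  (η (ψ q).1 (ψ q).2 (yy q)).comp (fderiv ℝ ψ q)

theorem pbe_apply (η : Bs → ℂ → ℂ → (Bs × ℂ →L[ℝ] H)) (ψ : E → Bs × ℂ) (yy : E → ℂ) (q v : E) :
    pbe η ψ yy q v = η (ψ q).1 (ψ q).2 (yy q) (fderiv ℝ ψ q v) := rfl

/-- the conditions on a chart at a point -/
structure ChAt (O : Set Bs) (ψ : E → Bs × ℂ) (yy : E → ℂ) (q : E) : Prop where
  mem : (ψ q).1 ∈ O
  smooth : ContDiffAt ℝ ∞ ψ q
  cont : ContinuousAt yy q
  sq : ∀ᶠ r in 𝓝 q, yy r ^ 2 = ff (ψ r)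
  ne : ff (ψ q) ≠ 0

variable {O : Set Bs} {η : Bs → ℂ → ℂ → (Bs × ℂ →L[ℝ] H)} {A : Bs → (ℂ × ℂ →L[ℝ] H)}
  {ψ : E → Bs × ℂ} {yy : E → ℂ} {q : E}

theorem ChAt.isBr (h : ChAt O ψ yy q) : IsBr (Ybr (ψ q) (yy q)) (ψ q) :=
  isBr_Ybr h.ne h.sq.self_of_nhds

theorem ChAt.eq_br (h : ChAt O ψ yy q) : ∀ᶠ r in 𝓝 q, yy r = Ybr (ψ q) (yy q) (ψ r) := by
  have h1 : ContinuousAt (fun r => Ybr (ψ q) (yy q) (ψ r)) q :=
    ContinuousAt.comp (f := ψ) h.isBr.cont h.smooth.continuousAt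
  refine eventuallyEq_of_sq h.cont h1 ?_ ?_ ?_
  · rw [Ybr_self h.ne]
  · intro h0
    have h2 := h.sq.self_of_nhds
    rw [h0] at h2
    exact h.ne (by rw [← h2]; simp)
  · filter_upwards [h.sq, h.smooth.continuousAt.eventually h.isBr.sq] with r h3 h4
    rw [h3, h4]

/-- the form along the branch through the point of the chart -/
def brf (η : Bs → ℂ → ℂ → (Bs × ℂ →L[ℝ] H)) (ψ : E → Bs × ℂ) (yy : E → ℂ) (q : E)
    (p : Bs × ℂ) : Bs × ℂ →L[ℝ] H := η p.1 p.2 (Ybr (ψ q) (yy q) p)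

theorem ChAt.pbe_eq (h : ChAt O ψ yy q) :
    pbe η ψ yy =ᶠ[𝓝 q] fun r => (brf η ψ yy q (ψ r)).comp (fderiv ℝ ψ r) := by
  filter_upwards [h.eq_br] with r hr
  unfold pbe brf
  rw [hr]

theorem ChAt.hasFDerivAt (h : ChAt O ψ yy q) (hη : FlatOn O η A) :
    HasFDerivAt (pbe η ψ yy)
      ((ContinuousLinearMap.compL ℝ E (Bs × ℂ) H (brf η ψ yy q (ψ q))).comp
        (fderiv ℝ (fderiv ℝ ψ) q) +
        ((ContinuousLinearMap.compL ℝ E (Bs × ℂ) H).flip (fderiv ℝ ψ q)).comp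
          ((fderiv ℝ (brf η ψ yy q) (ψ q)).comp (fderiv ℝ ψ q))) q := by
  have h1 : HasFDerivAt (brf η ψ yy q) (fderiv ℝ (brf η ψ yy q) (ψ q)) (ψ q) :=
    ((hη.smooth (ψ q) h.mem _ h.isBr).differentiableAt (by simp)).hasFDerivAt
  have h2 : HasFDerivAt ψ (fderiv ℝ ψ q) q := (h.smooth.differentiableAt (by simp)).hasFDerivAt
  have h3 : HasFDerivAt (fun r => brf η ψ yy q (ψ r))
      ((fderiv ℝ (brf η ψ yy q) (ψ q)).comp (fderiv ℝ ψ q)) q := HasFDerivAt.comp q h1 h2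
  have h4 : HasFDerivAt (fderiv ℝ ψ) (fderiv ℝ (fderiv ℝ ψ) q) q := by
    have h5 : ContDiffAt ℝ 1 (fderiv ℝ ψ) q :=
      h.smooth.fderiv_right (m := 1) one_add_one_le
    exact (h5.differentiableAt (by simp)).hasFDerivAt
  have h6 := (h3.clm_comp h4).congr_of_eventuallyEq (h.pbe_eq (η := η))
  exact h6

theorem ChAt.differentiableAt (h : ChAt O ψ yy q) (hη : FlatOn O η A) :
    DifferentiableAt ℝ (pbe η ψ yy) q := (h.hasFDerivAt hη).differentiableAt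

theorem ChAt.symm (h : ChAt O ψ yy q) (hη : FlatOn O η A) (v w : E) :
    fderiv ℝ (pbe η ψ yy) q v w = fderiv ℝ (pbe η ψ yy) q w v := by
  rw [(h.hasFDerivAt hη).fderiv]
  have h1 : ∀ v w : E, ((ContinuousLinearMap.compL ℝ E (Bs × ℂ) H (brf η ψ yy q (ψ q))).comp
        (fderiv ℝ (fderiv ℝ ψ) q) +
        ((ContinuousLinearMap.compL ℝ E (Bs × ℂ) H).flip (fderiv ℝ ψ q)).comp
          ((fderiv ℝ (brf η ψ yy q) (ψ q)).comp (fderiv ℝ ψ q))) v w =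
      brf η ψ yy q (ψ q) (fderiv ℝ (fderiv ℝ ψ) q v w) +
        fderiv ℝ (brf η ψ yy q) (ψ q) (fderiv ℝ ψ q v) (fderiv ℝ ψ q w) := fun _ _ => rfl
  rw [h1, h1]
  have h2 : fderiv ℝ (fderiv ℝ ψ) q v w = fderiv ℝ (fderiv ℝ ψ) q w v :=
    (h.smooth.isSymmSndFDerivAt (by
      rw [minSmoothness_of_isRCLikeNormedField]; exact two_le)) v w
  have h3 := hη.closed (ψ q) h.mem _ h.isBr (fderiv ℝ ψ q v) (fderiv ℝ ψ q w)
  have h4 : fderiv ℝ (brf η ψ yy q) (ψ q) (fderiv ℝ ψ q v) (fderiv ℝ ψ q w) =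
      fderiv ℝ (brf η ψ yy q) (ψ q) (fderiv ℝ ψ q w) (fderiv ℝ ψ q v) := h3
  rw [h2, h4]

/-- pull-back along a map of charts -/
theorem pbe_comp {E' : Type*} [NormedAddCommGroup E'] [NormedSpace ℝ E'] {m : E' → E} {r : E'}
    (hψ : DifferentiableAt ℝ ψ (m r)) (hm : DifferentiableAt ℝ m r) :
    pbe η (fun r => ψ (m r)) (fun r => yy (m r)) r = (pbe η ψ yy (m r)).comp (fderiv ℝ m r) := by
  unfold pbe
  have h1 : fderiv ℝ (fun r => ψ (m r)) r = (fderiv ℝ ψ (m r)).comp (fderiv ℝ m r) :=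
    fderiv_fun_comp r hψ hm
  rw [h1]
  rfl

section vertical

variable {Q F : Type*} [NormedAddCommGroup Q] [NormedSpace ℝ Q] [NormedAddCommGroup F]
  [NormedSpace ℝ F]

/-- a closed form with zero fibre component is constant along segments of the fibres -/
theorem const_seg {om : Q × F → (Q × F →L[ℝ] ℝ)} {Ω : Set (Q × F)} (hΩ : IsOpen Ω)
    (hd : ∀ p ∈ Ω, DifferentiableAt ℝ om p)
    (hs : ∀ p ∈ Ω, ∀ u v, fderiv ℝ om p u v = fderiv ℝ om p v u)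
    (hv : ∀ p ∈ Ω, ∀ c : F, om p (0, c) = 0) {q : Q} {z₀ z₁ : F}
    (hp : ∀ t ∈ Icc (0 : ℝ) 1, (q, z₀ + t • (z₁ - z₀)) ∈ Ω) : om (q, z₀) = om (q, z₁) := by
  have h0 : ∀ p ∈ Ω, ∀ v : Q, ∀ c : F, om p (v, c) = om p (v, 0) := by
    intro p hp v c
    have h1 : ((v, c) : Q × F) = (v, 0) + (0, c) := by simp
    rw [h1, map_add, hv p hp, add_zero]
  have hz : ∀ t : ℝ, HasDerivAt (fun t : ℝ => z₀ + t • (z₁ - z₀)) (z₁ - z₀) t := by
    intro t
    have h2 := ((hasDerivAt_id t).smul_const (z₁ - z₀)).const_add z₀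
    simpa using h2
  have he : z₀ + (1 : ℝ) • (z₁ - z₀) = z₁ := by rw [one_smul]; abel
  have he0 : z₀ + (0 : ℝ) • (z₁ - z₀) = z₀ := by rw [zero_smul, add_zero]
  have h1 : ∀ v : Q, om (q, z₀) (v, 0) = om (q, z₁) (v, 0) := by
    intro v
    have h2 : ∀ t ∈ Icc (0 : ℝ) 1,
        HasDerivAt (fun t : ℝ => om (q, z₀ + t • (z₁ - z₀)) (v, 0)) 0 t := fun t ht =>
      H722.hasDerivAt_base hΩ hd hs hv (hz t) (hp t ht) v
    have h3 := constant_of_has_deriv_right_zero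
      (fun s hs => (h2 s hs).continuousAt.continuousWithinAt)
      (fun s hs => (h2 s ⟨hs.1, hs.2.le⟩).hasDerivWithinAt) 1 ⟨zero_le_one, le_rfl⟩
    simp only [he, he0] at h3
    exact h3.symm
  have m0 : (q, z₀) ∈ Ω := by
    have := hp 0 ⟨le_rfl, zero_le_one⟩
    rwa [he0] at this
  have m1 : (q, z₁) ∈ Ω := by
    have := hp 1 ⟨zero_le_one, le_rfl⟩
    rwa [he] at this
  refine ContinuousLinearMap.ext fun w => ?_
  rw [← Prod.mk.eta (p := w), h0 _ m0, h0 _ m1, h1]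

end vertical

end

end Vale.Agent.P273.H339
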