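import Vale.Agent.P273.H339.Node2
import Vale.Agent.P273.H401.NkLink

/-!
# P273, row 4: `H401.LinkN` from the neck theorem
-/

namespace Vale.Agent.P273.H339

open scoped ContDiff Topology
open Set Filter Complex Metric
open Vale.Agent.P273.H214 (Bs ff FlatOn)
open Vale.Agent.P273.H598 (NB bb)
open Vale.Agent.P273.H598.Sol (dot)
open Vale.Agent.P273.H730 (bd bw xn nv)
open Vale.Agent.P273.H580 (fl mkA AX cX theStms theFlatFam mkA_apply)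
open Vale.Agent.P273.H401 (UU ccN FFN LinkN)
open Vale.Agent.P273.H95 (IsCl rts pol)
open Vale.Agent.P273.H973 (On1)
open Vale.Agent.P273.H681 (XX)

noncomputable section

/-- `(q, l, z) ↦ ((q, l), z - l)` -/
def Lc : (Fin 6 → ℂ) × ℂ × ℂ →L[ℝ] En :=
  ((ContinuousLinearMap.fst ℝ (Fin 6 → ℂ) (ℂ × ℂ)).prod
    ((ContinuousLinearMap.fst ℝ ℂ ℂ).comp (ContinuousLinearMap.snd ℝ (Fin 6 → ℂ) (ℂ × ℂ)))).prod
    ((ContinuousLinearMap.snd ℝ ℂ ℂ).comp (ContinuousLinearMap.snd ℝ (Fin 6 → ℂ) (ℂ × ℂ)) -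
      (ContinuousLinearMap.fst ℝ ℂ ℂ).comp (ContinuousLinearMap.snd ℝ (Fin 6 → ℂ) (ℂ × ℂ)))

theorem Lc_apply (w : (Fin 6 → ℂ) × ℂ × ℂ) : Lc w = ((w.1, w.2.1), w.2.2 - w.2.1) := rfl

theorem Xn_Lc (w : (Fin 6 → ℂ) × ℂ × ℂ) : Xn (Lc w) = cexp w.2.2 := by
  unfold Xn
  rw [Lc_apply]
  congr 1
  ring

theorem Yn_Lc (w : (Fin 6 → ℂ) × ℂ × ℂ) : Yn (Lc w) = cexp (2 * w.2.1 - w.2.2) := by
  unfold Yn
  rw [Lc_apply]
  congr 1
  ring

theorem dn_Lc (w : (Fin 6 → ℂ) × ℂ × ℂ) : dn (Lc w) = cexp w.2.1 := rfl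

theorem UU_eq (k : Fin 5) (ρ : ℝ) (ξ : Fin 6 → ℝ) :
    UU k ρ ξ = fun w => Un (AX ξ) k ρ (Lc w) := by
  funext w
  have hA : Un (AX ξ) k ρ (Lc w) = ((fl ξ (bn k (Lc w))).1 * Zn k ρ 0 (Lc w) +
      (fl ξ (bn k (Lc w))).2.1 * Zn k ρ 1 (Lc w)).re := rfl
  have h1 : (Lc w).1.1 = w.1 := rfl
  have h2 : (Lc w).2 = w.2.2 - w.2.1 := rfl
  have h3 : bn k (Lc w) = bb k (cexp w.2.1, w.1) := rfl
  rw [hA]
  unfold UU Zn ccN FFN dot
  rw [Xn_Lc, Yn_Lc, dn_Lc, h1, h2, h3, ← Complex.add_re]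
  congr 1
  ring

/-- **`H401.LinkN`** -/
theorem linkN : LinkN := by
  intro k V ρ h ξ hξ q hq l z _ hX hY hb v hv
  have hF : FlatOn XX (theFlatFam.η ξ) (AX ξ) := theFlatFam.flat ξ hξ
  set w : (Fin 6 → ℂ) × ℂ × ℂ := (q, l, z) with hw
  have hv1 : v ^ 2 = ff (bd k q (cexp l), xn k q (cexp z) (cexp (2 * l - z))) := by
    rw [hv.1]
    exact H214.pol_false _ _
  have hX' : ‖Xn (Lc w)‖ < ρ := by rw [Xn_Lc]; exact hX
  have hY' : ‖Yn (Lc w)‖ < ρ := by rw [Yn_Lc]; exact hY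
  have e1 : bd k (Lc w).1.1 (dn (Lc w)) = bd k q (cexp l) := rfl
  have e2 : xn k (Lc w).1.1 (Xn (Lc w)) (Yn (Lc w)) =
      xn k q (cexp z) (cexp (2 * l - z)) := by
    rw [Xn_Lc, Yn_Lc]
    rfl
  have hv2 : v ^ 2 = vn k (Lc w) ^ 2 := by
    rw [vn_sq, hv1, ← e1, ← e2]
    rfl
  have hp : Lc w ∈ Omn k V ρ XX := by
    refine ⟨hq, hb, hX', hY', fun h5 => hv.2 ?_⟩
    have e3 : vn k (Lc w) = 0 := by
      unfold vn
      rw [h5, sub_self, zero_div, mul_zero]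
    rw [e3] at hv2
    simpa using hv2
  have key : ∀ (δ : Fin 6 → ℂ) (lX lY : ℂ),
      theFlatFam.η ξ (bd k q (cexp l)) (xn k q (cexp z) (cexp (2 * l - z))) (vn k (Lc w))
          (nv k δ (cexp l) (cexp z) (cexp (2 * l - z)) lX lY) =
        fderiv ℝ (UU k ρ ξ) (q, l, z) (δ, (lX + lY) / 2, lX) := by
    intro δ lX lY
    have h1 := eta_nv h hF hp δ lX lY
    rw [e1, e2, Xn_Lc, Yn_Lc, dn_Lc] at h1
    have h2 : fderiv ℝ (UU k ρ ξ) (q, l, z) = (fderiv ℝ (Un (AX ξ) k ρ) (Lc w)).comp Lc := by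
      rw [UU_eq]
      have h3 := fderiv_fun_comp (g := Un (AX ξ) k ρ) (f := Lc) w
        ((contDiffAt_Un h hF.smoothA hp).differentiableAt (by simp)) Lc.differentiableAt
      rw [Lc.fderiv] at h3
      exact h3
    rw [h2, h1, ContinuousLinearMap.comp_apply, Lc_apply]
    congr 2
    show (lX - lY) / 2 = lX - (lX + lY) / 2
    ring
  rcases sq_eq_sq_iff_eq_or_eq_neg.1 hv2 with h5 | h5
  · refine ⟨1, abs_one, fun δ lX lY => ?_⟩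
    rw [one_mul, h5]
    exact key δ lX lY
  · refine ⟨-1, by rw [abs_neg, abs_one], fun δ lX lY => ?_⟩
    rw [h5, hF.odd, neg_apply, key, neg_one_mul]

end

end Vale.Agent.P273.H339
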