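import Vale.Agent.P273.H339.Closed
import Vale.Agent.P273.H598.Node1

/-!
# P273, row 4, Link1 NECK without cuts: the flat form in the neck of one node

Base: `Q1 = C6 × ℂ ∋ (q, l)`, `d = exp l`; fibre coordinate `z`: `X = exp (l + z)`,
`Y = exp (l - z)`. The reflection is `z ↦ - z`.
-/

namespace Vale.Agent.P273.H339

open scoped ContDiff Topology
open Set Filter Complex Metric
open Vale.Agent.P273.H214 (Bs ff FlatOn IsBr)
open Vale.Agent.P273.H722 (fderiv_facts)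
open Vale.Agent.P273.H598 (c0 q0 P0 split hasDerivAt_P0 HH GG Gd NB bb oth GG_ne_zero
  differentiableOn_HH differentiableOn_P0 differentiableOn_c0)

noncomputable section

/-! ### the fibre is connected -/

section conn

variable {Q : Type*} [NormedAddCommGroup Q] [NormedSpace ℝ Q] {om : Q × ℂ → (Q × ℂ →L[ℝ] ℝ)}
  {Ω : Set (Q × ℂ)}

theorem exp_two_ne_of_re {z : ℂ} (h : z.re ≠ 0) : cexp (2 * z) ≠ 1 := by
  intro h1
  have h2 := congrArg norm h1
  rw [Complex.norm_exp, norm_one, Real.exp_eq_one_iff] at h2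
  simp at h2
  exact h h2

theorem exp_two_mid (s : ℝ) : cexp (2 * (⟨s, Real.pi / 2⟩ : ℂ)) ≠ 1 := by
  have e1 : (2 * (⟨s, Real.pi / 2⟩ : ℂ)) = ((2 * s : ℝ) : ℂ) + Real.pi * I := by
    apply Complex.ext
    · simp
    · simp
      ring
  rw [e1, Complex.exp_add, Complex.exp_pi_mul_I, ← Complex.ofReal_exp]
  intro h
  have h2 := congrArg Complex.re h
  rw [Complex.re_ofReal_mul, Complex.neg_re, Complex.one_re] at h2
  have := Real.exp_pos (2 * s)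
  linarith

theorem exp_two_phase {t : ℝ} (h : cexp (2 * (⟨0, t⟩ : ℂ)) ≠ 1) (s : ℝ) :
    cexp (2 * (⟨s, t⟩ : ℂ)) ≠ 1 := by
  by_cases hs : s = 0
  · subst hs
    exact h
  · exact exp_two_ne_of_re hs

theorem exp_two_neg {z : ℂ} (h : cexp (2 * z) ≠ 1) : cexp (2 * -z) ≠ 1 := by
  rw [mul_neg, Complex.exp_neg]
  intro h1
  exact h (inv_eq_one.1 h1)

/-- the values at `z` and `- z` agree -/
theorem conn1 (hΩ : IsOpen Ω) (hd : ∀ p ∈ Ω, DifferentiableAt ℝ om p)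
    (hs : ∀ p ∈ Ω, ∀ u v, fderiv ℝ om p u v = fderiv ℝ om p v u)
    (hv : ∀ p ∈ Ω, ∀ c : ℂ, om p (0, c) = 0) {p : Q} {h : ℝ}
    (hm : ∀ z : ℂ, |z.re| < h → cexp (2 * z) ≠ 1 → (p, z) ∈ Ω) {z : ℂ} (hz : |z.re| < h)
    (hne : cexp (2 * z) ≠ 1) : om (p, z) = om (p, -z) := by
  have hh : 0 < h := (abs_nonneg _).trans_lt hz
  -- along a vertical line
  have A : ∀ {s t t' : ℝ}, |s| < h → s ≠ 0 → om (p, ⟨s, t⟩) = om (p, ⟨s, t'⟩) := by
    intro s t t' h1 h2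
    refine const_seg hΩ hd hs hv fun r _ => ?_
    have e : (⟨s, t⟩ : ℂ) + r • ((⟨s, t'⟩ : ℂ) - ⟨s, t⟩) = ⟨s, t + r * (t' - t)⟩ := by
      apply Complex.ext <;> simp
    rw [e]
    exact hm _ h1 (exp_two_ne_of_re h2)
  -- along a horizontal line
  have B : ∀ {s s' t : ℝ}, |s| < h → |s'| < h → (∀ s, cexp (2 * (⟨s, t⟩ : ℂ)) ≠ 1) →
      om (p, ⟨s, t⟩) = om (p, ⟨s', t⟩) := by
    intro s s' t h1 h1' h2
    refine const_seg hΩ hd hs hv fun r hr => ?_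
    have e : (⟨s, t⟩ : ℂ) + r • ((⟨s', t⟩ : ℂ) - ⟨s, t⟩) = ⟨s + r * (s' - s), t⟩ := by
      apply Complex.ext <;> simp
    rw [e]
    refine hm _ ?_ (h2 _)
    rw [abs_lt] at h1 h1' ⊢
    obtain ⟨r0, r1⟩ := hr
    constructor
    · show -h < s + r * (s' - s)
      nlinarith [mul_nonneg r0 (by linarith : (0 : ℝ) ≤ s' + h),
        mul_nonneg (sub_nonneg.2 r1) (by linarith : (0 : ℝ) ≤ s + h), h1.1, h1'.1]
    · show s + r * (s' - s) < h
      nlinarith [mul_nonneg r0 (by linarith : (0 : ℝ) ≤ h - s'),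
        mul_nonneg (sub_nonneg.2 r1) (by linarith : (0 : ℝ) ≤ h - s), h1.2, h1'.2]
  obtain ⟨s, t⟩ := z
  have e0 : -(⟨s, t⟩ : ℂ) = ⟨-s, -t⟩ := rfl
  rw [e0]
  simp only at hz
  have hz' : |-s| < h := by rwa [abs_neg]
  by_cases h0 : s = 0
  · subst h0
    have hph := exp_two_phase hne
    have hph' : ∀ s, cexp (2 * (⟨s, -t⟩ : ℂ)) ≠ 1 := by
      intro s
      have h1 := exp_two_neg (hph (-s))
      have e1 : -(⟨-s, t⟩ : ℂ) = ⟨s, -t⟩ := by apply Complex.ext <;> simp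
      rwa [e1] at h1
    have i1 : |h / 2| < h := by rw [abs_of_pos (by linarith)]; linarith
    have i2 : |-(h / 2)| < h := by rw [abs_neg]; exact i1
    have n1 : h / 2 ≠ 0 := by linarith
    have n2 : -(h / 2) ≠ 0 := by linarith
    rw [B hz i1 hph, A (t' := Real.pi / 2) i1 n1, B i1 i2 exp_two_mid, A (t' := -t) i2 n2,
      B i2 hz' hph']
  · have n2 : -s ≠ 0 := neg_ne_zero.2 h0
    rw [A (t' := Real.pi / 2) hz h0, B hz hz' exp_two_mid, A (t' := -t) hz' n2]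

end conn

/-! ### the model -/

/-- `((q, l), z)` -/
abbrev En : Type := ((Fin 6 → ℂ) × ℂ) × ℂ

def dn (p : En) : ℂ := cexp p.1.2
def Xn (p : En) : ℂ := cexp (p.1.2 + p.2)
def Yn (p : En) : ℂ := cexp (p.1.2 - p.2)
/-- the half sum -/
def wn (p : En) : ℂ := (Xn p + Yn p) / 2

variable (k : Fin 5)

/-- the roots -/
def bn (p : En) : Bs := bb k (dn p, p.1.1)
/-- the point -/
def xp (p : En) : ℂ := p.1.1 k.castSucc + wn p
/-- the sheet -/
def vn (p : En) : ℂ := GG k p.1.1 (wn p) * ((Xn p - Yn p) / 2)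
def psn (p : En) : Bs × ℂ := (bn k p, xp k p)

/-- the reflection -/
def Tn : En →L[ℝ] En :=
  (ContinuousLinearMap.fst ℝ ((Fin 6 → ℂ) × ℂ) ℂ).prod
    (-(ContinuousLinearMap.snd ℝ ((Fin 6 → ℂ) × ℂ) ℂ))

theorem Tn_apply (p : En) : Tn p = (p.1, -p.2) := rfl

theorem dn_Tn (p : En) : dn (Tn p) = dn p := rfl

theorem Xn_Tn (p : En) : Xn (Tn p) = Yn p := by
  unfold Xn Yn
  rw [Tn_apply, sub_eq_add_neg]

theorem Yn_Tn (p : En) : Yn (Tn p) = Xn p := by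
  unfold Xn Yn
  rw [Tn_apply, sub_neg_eq_add]

theorem wn_Tn (p : En) : wn (Tn p) = wn p := by
  unfold wn
  rw [Xn_Tn, Yn_Tn, add_comm]

theorem psn_Tn (p : En) : psn k (Tn p) = psn k p := by
  unfold psn xp bn
  rw [wn_Tn, dn_Tn]
  rfl

theorem vn_Tn (p : En) : vn k (Tn p) = -vn k p := by
  unfold vn
  rw [wn_Tn, Xn_Tn, Yn_Tn]
  have : (Tn p).1 = p.1 := rfl
  rw [this]
  ring

theorem Xn_mul_Yn (p : En) : Xn p * Yn p = dn p ^ 2 := by
  unfold Xn Yn dn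
  rw [← Complex.exp_add, ← Complex.exp_nat_mul]
  congr 1
  push_cast
  ring

theorem norm_Xn (p : En) : ‖Xn p‖ = Real.exp (p.1.2.re + p.2.re) := by
  unfold Xn
  rw [Complex.norm_exp, Complex.add_re]

theorem norm_Yn (p : En) : ‖Yn p‖ = Real.exp (p.1.2.re - p.2.re) := by
  unfold Yn
  rw [Complex.norm_exp, Complex.sub_re]

theorem Xn_eq_Yn (p : En) : Xn p = Yn p ↔ cexp (2 * p.2) = 1 := by
  unfold Xn Yn
  have h1 : cexp (p.1.2 + p.2) = cexp (p.1.2 - p.2) * cexp (2 * p.2) := by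
    rw [← Complex.exp_add]
    congr 1
    ring
  rw [h1]
  constructor
  · intro h
    exact (mul_right_eq_self₀.1 h).resolve_right (Complex.exp_ne_zero _)
  · intro h
    rw [h, mul_one]

/-- the domain -/
def Omn (V : Set (Fin 6 → ℂ)) (ρ : ℝ) (O : Set Bs) : Set En :=
  {p | p.1.1 ∈ V ∧ bn k p ∈ O ∧ ‖Xn p‖ < ρ ∧ ‖Yn p‖ < ρ ∧ Xn p ≠ Yn p}

variable {k} {V : Set (Fin 6 → ℂ)} {ρ : ℝ} {O : Set Bs}

theorem Tn_mem {p : En} (h : p ∈ Omn k V ρ O) : Tn p ∈ Omn k V ρ O := by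
  obtain ⟨h1, h2, h3, h4, h5⟩ := h
  refine ⟨h1, h2, ?_, ?_, ?_⟩
  · rw [Xn_Tn]; exact h4
  · rw [Yn_Tn]; exact h3
  · rw [Xn_Tn, Yn_Tn]; exact h5.symm

theorem contDiff_dn : ContDiff ℝ ∞ dn := by
  unfold dn
  exact ContDiff.cexp (by fun_prop)

theorem contDiff_Xn : ContDiff ℝ ∞ Xn := by
  unfold Xn
  exact ContDiff.cexp (by fun_prop)

theorem contDiff_Yn : ContDiff ℝ ∞ Yn := by
  unfold Yn
  exact ContDiff.cexp (by fun_prop)

theorem contDiff_wn : ContDiff ℝ ∞ wn := by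
  unfold wn
  exact (contDiff_Xn.add contDiff_Yn).div_const _

theorem contDiff_bn (k : Fin 5) : ContDiff ℝ ∞ (bn k) := by
  unfold bn bb H828.pr
  refine contDiff_pi.2 fun j => ?_
  have h1 : ∀ j : Fin 6, ContDiff ℝ ∞ fun p : En => p.1.1 j := fun j => by fun_prop
  by_cases h2 : j = k.castSucc
  · simp only [h2, if_true]
    exact (h1 _).sub contDiff_dn
  · by_cases h3 : j = k.succ
    · have h4 : ¬ k.succ = k.castSucc := by rw [← h3]; exact h2
      simp only [h3, h4, if_true, if_false]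
      exact (h1 _).add contDiff_dn
    · simp only [h2, h3, if_false]
      exact h1 _

theorem contDiff_xp (k : Fin 5) : ContDiff ℝ ∞ (xp k) := by
  unfold xp
  have h1 : ContDiff ℝ ∞ fun p : En => p.1.1 k.castSucc := by fun_prop
  exact h1.add contDiff_wn

theorem contDiff_psn (k : Fin 5) : ContDiff ℝ ∞ (psn k) := (contDiff_bn k).prodMk (contDiff_xp k)

theorem isOpen_Omn (hV : IsOpen V) (hO : IsOpen O) : IsOpen (Omn k V ρ O) := by
  have h : Omn k V ρ O = ((fun p : En => p.1.1) ⁻¹' V ∩ bn k ⁻¹' O) ∩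
      ({p | ‖Xn p‖ < ρ} ∩ ({p | ‖Yn p‖ < ρ} ∩ {p | Xn p ≠ Yn p})) := by
    ext p
    simp only [Omn, mem_ofPred_eq, mem_inter_iff, mem_preimage]
    tauto
  rw [h]
  refine ((hV.preimage (by fun_prop)).inter (hO.preimage (contDiff_bn k).continuous)).inter
    ((isOpen_lt contDiff_Xn.continuous.norm continuous_const).inter
      ((isOpen_lt contDiff_Yn.continuous.norm continuous_const).inter ?_))
  exact isOpen_ne_fun contDiff_Xn.continuous contDiff_Yn.continuous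

/-! ### the chart -/

theorem norm_wn {p : En} (h3 : ‖Xn p‖ < ρ) (h4 : ‖Yn p‖ < ρ) : ‖wn p‖ < ρ := by
  unfold wn
  rw [norm_div]
  have h2 : ‖(2 : ℂ)‖ = 2 := by simp
  rw [h2]
  have := norm_add_le (Xn p) (Yn p)
  linarith

theorem norm_dn_sq {p : En} (h3 : ‖Xn p‖ < ρ) (h4 : ‖Yn p‖ < ρ) : ‖dn p ^ 2‖ < ρ ^ 2 := by
  rw [← Xn_mul_Yn, norm_mul, sq]
  exact mul_lt_mul'' h3 h4 (norm_nonneg _) (norm_nonneg _)

theorem gd_of (h : NB k V ρ) {p : En} (hp : p ∈ Omn k V ρ O) : (p.1.1, wn p) ∈ Gd k := by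
  refine h.mem_gd hp.1 ((norm_wn hp.2.2.1 hp.2.2.2.1).trans ?_)
  linarith [h.pos]

theorem GG_sq (k : Fin 5) (q : Fin 6 → ℂ) (z : ℂ) :
    GG k q z ^ 2 = ∏ l ∈ oth k, (q k.castSucc + z - q l) := by
  unfold GG
  rw [← Finset.prod_pow]
  refine Finset.prod_congr rfl fun l _ => ?_
  rw [sq, H857.br_mul_self]

theorem vn_sq (p : En) : vn k p ^ 2 = ff (psn k p) := by
  have h1 : k.succ ∈ Finset.univ.erase k.castSucc := by simp [H598.succ_ne k]
  unfold ff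
  rw [← Finset.mul_prod_erase Finset.univ _ (Finset.mem_univ k.castSucc),
    ← Finset.mul_prod_erase (Finset.univ.erase k.castSucc) _ h1]
  have e0 : (psn k p).2 - (psn k p).1 k.castSucc = wn p + dn p := by
    show xp k p - bb k (dn p, p.1.1) k.castSucc = _
    rw [H598.bb_zero]
    unfold xp
    ring
  have e1 : (psn k p).2 - (psn k p).1 k.succ = wn p - dn p := by
    show xp k p - bb k (dn p, p.1.1) k.succ = _
    rw [H598.bb_one]
    unfold xp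
    ring
  have e2 : ∏ i ∈ (Finset.univ.erase k.castSucc).erase k.succ, ((psn k p).2 - (psn k p).1 i) =
      ∏ l ∈ oth k, (p.1.1 k.castSucc + wn p - p.1.1 l) := by
    refine Finset.prod_congr rfl fun l hl => ?_
    have hl' := (H598.mem_oth k).1 hl
    show xp k p - bb k (dn p, p.1.1) l = _
    rw [H598.bb_of_ne k hl'.2 hl'.1]
    rfl
  have e3 : ((Xn p - Yn p) / 2) ^ 2 = wn p ^ 2 - dn p ^ 2 := by
    rw [← Xn_mul_Yn]
    unfold wn
    ring
  rw [e0, e1, e2, ← GG_sq]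
  unfold vn
  rw [mul_pow, e3]
  ring

theorem GG_ne (h : NB k V ρ) {p : En} (hp : p ∈ Omn k V ρ O) : GG k p.1.1 (wn p) ≠ 0 := by
  have h1 := GG_ne_zero (gd_of h hp)
  exact h1

theorem vn_ne_zero (h : NB k V ρ) {p : En} (hp : p ∈ Omn k V ρ O) : vn k p ≠ 0 := by
  have h1 := GG_ne h hp
  have h2 : (Xn p - Yn p) / 2 ≠ 0 := div_ne_zero (sub_ne_zero.2 hp.2.2.2.2) two_ne_zero
  exact mul_ne_zero h1 h2

theorem continuousAt_GG {p : (Fin 6 → ℂ) × ℂ} (hp : p ∈ Gd k) :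
    ContinuousAt (fun p : (Fin 6 → ℂ) × ℂ => GG k p.1 p.2) p := by
  have h1 : ContinuousAt (HH k 0) p :=
    ((differentiableOn_HH 0).differentiableAt ((H598.isOpen_Gd k).mem_nhds hp)).continuousAt
  have h2 : HH k 0 p ≠ 0 := by
    unfold HH
    rw [pow_zero, one_div]
    exact inv_ne_zero (GG_ne_zero hp)
  have h3 := h1.inv₀ h2
  have h4 : (fun p : (Fin 6 → ℂ) × ℂ => GG k p.1 p.2) = fun p => (HH k 0 p)⁻¹ := by
    funext p
    unfold HH
    rw [pow_zero, one_div, inv_inv]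
  rw [h4]
  exact h3

theorem continuousAt_vn (h : NB k V ρ) {p : En} (hp : p ∈ Omn k V ρ O) :
    ContinuousAt (vn k) p := by
  have c1 := contDiff_Xn.continuous.continuousAt (x := p)
  have c2 := contDiff_Yn.continuous.continuousAt (x := p)
  have c3 : ContinuousAt (fun p : En => (p.1.1, wn p)) p :=
    (continuous_fst.comp continuous_fst).continuousAt.prodMk contDiff_wn.continuous.continuousAt
  have c4 : ContinuousAt (fun p : En => GG k p.1.1 (wn p)) p :=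
    ContinuousAt.comp (f := fun p : En => (p.1.1, wn p))
      (g := fun p : (Fin 6 → ℂ) × ℂ => GG k p.1 p.2) (continuousAt_GG (gd_of h hp)) c3
  exact c4.mul ((c1.sub c2).div_const _)

theorem chAt_n (h : NB k V ρ) {p : En} (hp : p ∈ Omn k V ρ O) : ChAt O (psn k) (vn k) p := by
  refine ⟨hp.2.1, (contDiff_psn k).contDiffAt, continuousAt_vn h hp,
    Filter.Eventually.of_forall fun r => vn_sq r, ?_⟩
  rw [← vn_sq]
  exact pow_ne_zero 2 (vn_ne_zero h hp)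

/-! ### the potential -/

/-- one component of the primitive -/
def Zn (k : Fin 5) (ρ : ℝ) (m : ℕ) (p : En) : ℂ :=
  c0 (fun z => HH k m (p.1.1, z)) (5 * ρ) (dn p ^ 2) * p.2 +
    (P0 (fun z => HH k m (p.1.1, z)) (5 * ρ) (Xn p) (dn p ^ 2) -
      P0 (fun z => HH k m (p.1.1, z)) (5 * ρ) (Yn p) (dn p ^ 2))

/-- the potential -/
def Un (A : Bs → (ℂ × ℂ →L[ℝ] ℝ)) (k : Fin 5) (ρ : ℝ) (p : En) : ℝ :=
  A (bn k p) (Zn k ρ 0 p, Zn k ρ 1 p)

theorem contDiffAt_Zn (h : NB k V ρ) (m : ℕ) {p : En} (hp : p ∈ Omn k V ρ O) :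
    ContDiffAt ℝ ∞ (Zn k ρ m) p := by
  have hρ := h.pos
  have hH : DifferentiableOn ℂ (HH k m) (V ×ˢ ball (0 : ℂ) (6 * ρ)) :=
    (differentiableOn_HH m).mono h.gd
  have h56 : 5 * ρ < 6 * ρ := by linarith
  have hd : dn p ^ 2 ∈ ball (0 : ℂ) ((5 * ρ) ^ 2) := by
    rw [mem_ball_zero_iff]
    refine (norm_dn_sq hp.2.2.1 hp.2.2.2.1).trans ?_
    nlinarith
  have hX : Xn p ∈ ball (0 : ℂ) (5 * ρ) := by
    rw [mem_ball_zero_iff]
    linarith [hp.2.2.1]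
  have hY : Yn p ∈ ball (0 : ℂ) (5 * ρ) := by
    rw [mem_ball_zero_iff]
    linarith [hp.2.2.2.1]
  have a1 := (Vale.Agent.P268.analyticAt_of_differentiableOn (isOpen_ball.prod h.op)
    (differentiableOn_c0 h.op (by linarith) h56 hH) (x := (dn p ^ 2, p.1.1))
    ⟨hd, hp.1⟩)
  have a2 := fun {X : ℂ} (hX : X ∈ ball (0 : ℂ) (5 * ρ)) =>
    (Vale.Agent.P268.analyticAt_of_differentiableOn
    (isOpen_ball.prod (isOpen_ball.prod h.op)) (differentiableOn_P0 h.op h56 hH)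
    (x := (X, dn p ^ 2, p.1.1)) ⟨hX, hd, hp.1⟩)
  have b1 := (a1.contDiffAt (n := ∞)).restrict_scalars ℝ
  have b2 := ((a2 hX).contDiffAt (n := ∞)).restrict_scalars ℝ
  have b3 := ((a2 hY).contDiffAt (n := ∞)).restrict_scalars ℝ
  have q1 : ContDiffAt ℝ ∞ (fun p : En => p.1.1) p := by fun_prop
  have q2 : ContDiffAt ℝ ∞ (fun p : En => p.2) p := contDiffAt_snd
  have d2 : ContDiffAt ℝ ∞ (fun p : En => dn p ^ 2) p := contDiff_dn.contDiffAt.pow 2
  have c1 := ContDiffAt.comp (f := fun p : En => (dn p ^ 2, p.1.1)) p b1 (d2.prodMk q1)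
  have c2 := ContDiffAt.comp (f := fun p : En => (Xn p, dn p ^ 2, p.1.1)) p b2
    (contDiff_Xn.contDiffAt.prodMk (d2.prodMk q1))
  have c3 := ContDiffAt.comp (f := fun p : En => (Yn p, dn p ^ 2, p.1.1)) p b3
    (contDiff_Yn.contDiffAt.prodMk (d2.prodMk q1))
  exact (c1.mul q2).add (c2.sub c3)

theorem contDiffAt_Un (h : NB k V ρ) {A : Bs → (ℂ × ℂ →L[ℝ] ℝ)}
    (hA : ∀ b ∈ O, ContDiffAt ℝ ∞ A b) {p : En} (hp : p ∈ Omn k V ρ O) :
    ContDiffAt ℝ ∞ (Un A k ρ) p := by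
  have h1 : ContDiffAt ℝ ∞ (fun p => A (bn k p)) p :=
    (hA _ hp.2.1).comp p (contDiff_bn k).contDiffAt
  exact h1.clm_apply ((contDiffAt_Zn h 0 hp).prodMk (contDiffAt_Zn h 1 hp))

theorem Zn_Tn (k : Fin 5) (ρ : ℝ) (m : ℕ) (p : En) : Zn k ρ m (Tn p) = -Zn k ρ m p := by
  unfold Zn
  rw [Xn_Tn, Yn_Tn, dn_Tn]
  have h1 : (Tn p).1 = p.1 := rfl
  have h2 : (Tn p).2 = -p.2 := rfl
  rw [h1, h2]
  ring

theorem Un_Tn (A : Bs → (ℂ × ℂ →L[ℝ] ℝ)) (k : Fin 5) (ρ : ℝ) (p : En) :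
    Un A k ρ (Tn p) = -Un A k ρ p := by
  unfold Un
  rw [Zn_Tn, Zn_Tn]
  have h1 : bn k (Tn p) = bn k p := rfl
  rw [h1, ← map_neg]
  rfl

/-! ### vertical derivatives -/

theorem hasDerivAt_Xn (p : En) : HasDerivAt (fun z : ℂ => Xn (p.1, z)) (Xn p) p.2 := by
  have h1 : HasDerivAt (fun z : ℂ => p.1.2 + z) 1 p.2 := (hasDerivAt_id _).const_add _
  have h2 := h1.cexp
  rw [mul_one] at h2
  exact h2

theorem hasDerivAt_Yn (p : En) : HasDerivAt (fun z : ℂ => Yn (p.1, z)) (-Yn p) p.2 := by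
  have h1 : HasDerivAt (fun z : ℂ => p.1.2 - z) (-1) p.2 := (hasDerivAt_id _).const_sub _
  have h2 := h1.cexp
  rw [mul_neg_one] at h2
  exact h2

theorem hasDerivAt_Zn (h : NB k V ρ) (m : ℕ) {p : En} (hp : p ∈ Omn k V ρ O) :
    HasDerivAt (fun z : ℂ => Zn k ρ m (p.1, z)) (HH k m (p.1.1, wn p)) p.2 := by
  have hρ := h.pos
  have hdc := h.dcc m hp.1
  have hX : ‖Xn p‖ < 5 * ρ := by linarith [hp.2.2.1]
  have hY : ‖Yn p‖ < 5 * ρ := by linarith [hp.2.2.2.1]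
  have hd : ‖dn p ^ 2‖ < (5 * ρ) ^ 2 := by
    refine (norm_dn_sq hp.2.2.1 hp.2.2.2.1).trans ?_
    nlinarith
  have hc : ContinuousOn (fun z => HH k m (p.1.1, z)) (sphere 0 (5 * ρ)) := by
    have h2 := hdc.continuousOn
    rw [closure_ball _ (by linarith)] at h2
    exact h2.mono sphere_subset_closedBall
  have k1 := hasDerivAt_P0 hc hX hd
  have k2 := hasDerivAt_P0 hc hY hd
  have g1 : HasDerivAt (fun z : ℂ => P0 (fun z => HH k m (p.1.1, z)) (5 * ρ) (Xn (p.1, z))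
      (dn p ^ 2)) _ p.2 := HasDerivAt.comp (h := fun z : ℂ => Xn (p.1, z)) p.2 k1 (hasDerivAt_Xn p)
  have g2 : HasDerivAt (fun z : ℂ => P0 (fun z => HH k m (p.1.1, z)) (5 * ρ) (Yn (p.1, z))
      (dn p ^ 2)) _ p.2 := HasDerivAt.comp (h := fun z : ℂ => Yn (p.1, z)) p.2 k2 (hasDerivAt_Yn p)
  have g3 := ((hasDerivAt_id p.2).const_mul
    (c0 (fun z => HH k m (p.1.1, z)) (5 * ρ) (dn p ^ 2))).add (g1.sub g2)
  have s := split hdc hX hY (Xn_mul_Yn p)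
  refine g3.congr_deriv ?_
  rw [smul_eq_mul, smul_eq_mul] at s
  show _ = HH k m (p.1.1, (Xn p + Yn p) / 2)
  rw [s]
  ring

/-- the derivative along the fibre -/
theorem fderiv_inr {F : Type*} [NormedAddCommGroup F] [NormedSpace ℝ F] {f : En → F} {p : En}
    {f' : ℂ →L[ℝ] F} (hf : DifferentiableAt ℝ f p)
    (h : HasFDerivAt (fun z : ℂ => f (p.1, z)) f' p.2) (ζ : ℂ) : fderiv ℝ f p (0, ζ) = f' ζ := by
  have h1 : HasFDerivAt (fun z : ℂ => ((p.1, z) : En))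
      (ContinuousLinearMap.inr ℝ ((Fin 6 → ℂ) × ℂ) ℂ) p.2 := hasFDerivAt_prodMk_right p.1 p.2
  have h2 : HasFDerivAt (fun z : ℂ => f (p.1, z))
      ((fderiv ℝ f p).comp (ContinuousLinearMap.inr ℝ ((Fin 6 → ℂ) × ℂ) ℂ)) p.2 :=
    HasFDerivAt.comp (g := f) (f := fun z : ℂ => ((p.1, z) : En)) p.2 hf.hasFDerivAt h1
  rw [← h2.unique h]
  rfl

theorem Un_vert (h : NB k V ρ) {A : Bs → (ℂ × ℂ →L[ℝ] ℝ)}
    (hA : ∀ b ∈ O, ContDiffAt ℝ ∞ A b) {p : En} (hp : p ∈ Omn k V ρ O) (ζ : ℂ) :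
    fderiv ℝ (Un A k ρ) p (0, ζ) =
      A (bn k p) (HH k 0 (p.1.1, wn p) * ζ, HH k 1 (p.1.1, wn p) * ζ) := by
  have g0 := (hasDerivAt_Zn h 0 hp).complexToReal_fderiv
  have g1 := (hasDerivAt_Zn h 1 hp).complexToReal_fderiv
  have g2 := (A (bn k p)).hasFDerivAt.comp p.2 (g0.prodMk g1)
  rw [fderiv_inr ((contDiffAt_Un h hA hp).differentiableAt (by simp)) g2]
  rfl

theorem psn_vert (p : En) (ζ : ℂ) :
    fderiv ℝ (psn k) p (0, ζ) = (0, (Xn p - Yn p) / 2 * ζ) := by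
  have g0 := (((hasDerivAt_Xn p).add (hasDerivAt_Yn p)).div_const 2).const_add
    (p.1.1 k.castSucc)
  have g1 := g0.complexToReal_fderiv
  have g2 := (hasFDerivAt_const (𝕜 := ℝ) (bn k p) p.2).prodMk g1
  rw [fderiv_inr ((contDiff_psn k).contDiffAt.differentiableAt (by simp)) g2]
  refine Prod.ext rfl ?_
  show (Xn p + -Yn p) / 2 * ζ = _
  ring

theorem pbe_vert_n (h : NB k V ρ) {η : Bs → ℂ → ℂ → (Bs × ℂ →L[ℝ] ℝ)}
    {A : Bs → (ℂ × ℂ →L[ℝ] ℝ)} (hF : FlatOn O η A) {p : En} (hp : p ∈ Omn k V ρ O) (ζ : ℂ) :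
    pbe η (psn k) (vn k) p (0, ζ) =
      A (bn k p) (HH k 0 (p.1.1, wn p) * ζ, HH k 1 (p.1.1, wn p) * ζ) := by
  rw [pbe_apply, psn_vert]
  have hg := GG_ne h hp
  have hd : Xn p - Yn p ≠ 0 := sub_ne_zero.2 hp.2.2.2.2
  have e1 : (psn k p).1 = bn k p := rfl
  have e2 : (psn k p).2 = xp k p := rfl
  rw [e1, e2, hF.vert _ hp.2.1 _ _ (vn_sq p) (vn_ne_zero h hp)]
  congr 1
  refine Prod.ext ?_ ?_
  · show (Xn p - Yn p) / 2 * ζ / (GG k p.1.1 (wn p) * ((Xn p - Yn p) / 2)) =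
      (p.1.1 k.castSucc + wn p) ^ 0 / GG k p.1.1 (wn p) * ζ
    field_simp
  · show xp k p * ((Xn p - Yn p) / 2 * ζ) / (GG k p.1.1 (wn p) * ((Xn p - Yn p) / 2)) =
      (p.1.1 k.castSucc + wn p) ^ 1 / GG k p.1.1 (wn p) * ζ
    unfold xp
    field_simp

/-- **Link1 NECK**: the flat form in the neck of one node -/
theorem node_eq (h : NB k V ρ) {η : Bs → ℂ → ℂ → (Bs × ℂ →L[ℝ] ℝ)}
    {A : Bs → (ℂ × ℂ →L[ℝ] ℝ)} (hF : FlatOn O η A) {p : En} (hp : p ∈ Omn k V ρ O) :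
    pbe η (psn k) (vn k) p = fderiv ℝ (Un A k ρ) p := by
  have hU : ∀ p ∈ Omn k V ρ O, ContDiffAt ℝ ∞ (Un A k ρ) p := fun p hp =>
    contDiffAt_Un h hF.smoothA hp
  set om : En → (En →L[ℝ] ℝ) := fun p => pbe η (psn k) (vn k) p - fderiv ℝ (Un A k ρ) p with hom
  have hd : ∀ p ∈ Omn k V ρ O, DifferentiableAt ℝ om p := fun p hp =>
    ((chAt_n h hp).differentiableAt hF).sub (fderiv_facts ((hU p hp).of_le two_le)).1
  have hs : ∀ p ∈ Omn k V ρ O, ∀ u v, fderiv ℝ om p u v = fderiv ℝ om p v u := by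
    intro p hp u v
    have h2 : fderiv ℝ om p = fderiv ℝ (pbe η (psn k) (vn k)) p -
        fderiv ℝ (fderiv ℝ (Un A k ρ)) p :=
      fderiv_sub ((chAt_n h hp).differentiableAt hF) (fderiv_facts ((hU p hp).of_le two_le)).1
    rw [h2]
    show fderiv ℝ (pbe η (psn k) (vn k)) p u v - fderiv ℝ (fderiv ℝ (Un A k ρ)) p u v =
      fderiv ℝ (pbe η (psn k) (vn k)) p v u - fderiv ℝ (fderiv ℝ (Un A k ρ)) p v u
    rw [(chAt_n h hp).symm hF, (fderiv_facts ((hU p hp).of_le two_le)).2]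
  have hv : ∀ p ∈ Omn k V ρ O, ∀ c : ℂ, om p (0, c) = 0 := by
    intro p hp c
    show pbe η (psn k) (vn k) p (0, c) - fderiv ℝ (Un A k ρ) p (0, c) = 0
    rw [pbe_vert_n h hF hp, Un_vert h hF.smoothA hp, sub_self]
  have hc : om p = om (Tn p) := by
    obtain ⟨p1, z⟩ := p
    have h1 := hp.2.2.1
    have h2 := hp.2.2.2.1
    rw [norm_Xn, ← Real.lt_log_iff_exp_lt h.pos] at h1
    rw [norm_Yn, ← Real.lt_log_iff_exp_lt h.pos] at h2
    simp only at h1 h2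
    have h3 := conn1 (om := om) (p := p1) (z := z) (h := Real.log ρ - p1.2.re)
      (isOpen_Omn h.op hF.isOpen) hd hs hv ?_ ?_ ?_
    · exact h3
    · intro z' hz' hne
      rw [abs_lt] at hz'
      refine ⟨hp.1, hp.2.1, ?_, ?_, ?_⟩
      · rw [norm_Xn, ← Real.lt_log_iff_exp_lt h.pos]
        simp only
        linarith [hz'.2]
      · rw [norm_Yn, ← Real.lt_log_iff_exp_lt h.pos]
        simp only
        linarith [hz'.1]
      · intro h4
        exact hne ((Xn_eq_Yn _).1 h4)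
    · rw [abs_lt]
      constructor <;> linarith
    · intro h4
      exact hp.2.2.2.2 ((Xn_eq_Yn _).2 h4)
  have hT := Tn_mem hp
  have hT1 : (pbe η (psn k) (vn k) (Tn p)).comp Tn = -pbe η (psn k) (vn k) p := by
    have h5 := pbe_comp (η := η) (ψ := psn k) (yy := vn k) (m := Tn) (r := p)
      ((contDiff_psn k).contDiffAt.differentiableAt (by simp)) Tn.differentiableAt
    rw [Tn.fderiv] at h5
    rw [← h5]
    have h6 : (fun r => psn k (Tn r)) = psn k := by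
      funext r
      exact psn_Tn k r
    unfold pbe
    rw [h6]
    simp only [vn_Tn]
    rw [hF.odd]
    rfl
  have hT2 : (fderiv ℝ (Un A k ρ) (Tn p)).comp Tn = -fderiv ℝ (Un A k ρ) p := by
    have h5 : fderiv ℝ (fun r => Un A k ρ (Tn r)) p = (fderiv ℝ (Un A k ρ) (Tn p)).comp Tn := by
      have := fderiv_fun_comp (g := Un A k ρ) (f := Tn) p
        ((hU _ hT).differentiableAt (by simp)) Tn.differentiableAt
      rw [Tn.fderiv] at this
      exact this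
    rw [← h5]
    simp only [Un_Tn]
    exact fderiv_fun_neg
  -- compare on the base directions
  refine ContinuousLinearMap.ext fun v => ?_
  have key : om p v = 0 := by
    have e1 : om (Tn p) (Tn v) = -om p v := by
      show pbe η (psn k) (vn k) (Tn p) (Tn v) - fderiv ℝ (Un A k ρ) (Tn p) (Tn v) =
        -(pbe η (psn k) (vn k) p v - fderiv ℝ (Un A k ρ) p v)
      have h1 := DFunLike.congr_fun hT1 v
      have h2 := DFunLike.congr_fun hT2 v
      simp only [ContinuousLinearMap.comp_apply, neg_apply] at h1 h2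
      rw [h1, h2]
      ring
    have e2 : ∀ r ∈ Omn k V ρ O, ∀ v : En, om r v = om r (v.1, 0) := by
      intro r hr v
      have h1 : v = (v.1, 0) + (0, v.2) := by simp
      conv_lhs => rw [h1]
      rw [map_add, hv r hr, add_zero]
    have e3 : om (Tn p) (Tn v) = om p v := by
      rw [e2 _ hT, e2 _ hp v, hc]
      rfl
    linarith
  have h7 : pbe η (psn k) (vn k) p v - fderiv ℝ (Un A k ρ) p v = 0 := key
  linarith

end

end Vale.Agent.P273.H339
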