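import Vale.Agent.P273.H339.UNeck2
import Vale.Agent.P273.H630.KapInst
import Vale.Agent.P273.H545.BaseTheta
import Vale.Agent.P273.H562.AsyDefs

/-!
# P273, row (U), necks: smoothness of the potential, the concrete data at theta
-/

namespace Vale.Agent.P273.H339

open scoped ContDiff Topology
open Set Filter Complex
open Vale.Agent.P273.H214 (Bs ff FlatOn IsBr)
open Vale.Agent.P273.H722 (Pa ep norm_ep_apply hasFDerivAt_ep dep fderiv_facts contDiff_ep ib)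
open Vale.Agent.P273.H722.KapData (isSol contDiffAt_ss contDiffAt_wf eventually_big)
open Vale.Agent.P273.H517 (Sep Sm SmS ps hn Rn far_of' lt_sq_of differentiableAt_ps hn_dc
  differentiableOn_Rn isOpen_SmS cm_eq_c0)
open Vale.Agent.P273.H630 (cmIn sm_of_rad af_cm_theta)
open Vale.Agent.P273.H545 (cc)

noncomputable section

variable {e : Fin 3 → ℂ} {k : Fin 3} {q : Mo} {a0 a1 : Pa (Fin 3) → ℂ} {w : Pa (Fin 3) → ℝ}
  {ξ β : ℝ}

theorem contDiffAt_Rn (he : Sep e) (m : ℕ) (k : Fin 3) {ε : Fin 3 → ℂ} {X : ℂ} (hs : Sm ε)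
    (hX : ‖X‖ < 3 / 2) :
    ContDiffAt ℝ ∞ (fun p : (Fin 3 → ℂ) × ℂ => Rn e p.1 m k p.2) (ε, X) := by
  have h1 : IsOpen (SmS ×ˢ Metric.ball (0 : ℂ) (3 / 2)) := isOpen_SmS.prod Metric.isOpen_ball
  have h2 : ((ε, X) : (Fin 3 → ℂ) × ℂ) ∈ SmS ×ˢ Metric.ball (0 : ℂ) (3 / 2) :=
    ⟨hs, mem_ball_zero_iff.2 hX⟩
  have h3 := Vale.Agent.P268.analyticAt_of_differentiableOn h1 (differentiableOn_Rn he m k) h2
  exact (h3.contDiffAt (n := ∞)).restrict_scalars ℝ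

theorem contDiffAt_epM : ContDiffAt ℝ ∞ (fun q : Mo => ep q.1) q :=
  (contDiff_ep (n := ∞)).contDiffAt.comp q contDiffAt_fst

theorem contDiffAt_RM (he : Sep e) (hs : Sm (ep q.1)) (h0 : ContDiffAt ℝ ∞ a0 q.1)
    (h1 : ContDiffAt ℝ ∞ a1 q.1) {Z : Mo → ℂ} (hZ : ContDiffAt ℝ ∞ Z q) (hb : ‖Z q‖ < 3 / 2) :
    ContDiffAt ℝ ∞ (fun q => RM e k a0 a1 q.1 (Z q)) q := by
  have h2 : ∀ m, ContDiffAt ℝ ∞ (fun q : Mo => Rn e (ep q.1) m k (Z q)) q := fun m =>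
    ContDiffAt.comp (g := fun p : (Fin 3 → ℂ) × ℂ => Rn e p.1 m k p.2)
      (f := fun q : Mo => (ep q.1, Z q)) q (contDiffAt_Rn he m k hs hb)
      (contDiffAt_epM.prodMk hZ)
  have h3 : ContDiffAt ℝ ∞ (fun q : Mo => a0 q.1) q :=
    ContDiffAt.comp (g := a0) (f := Prod.fst) q h0 contDiffAt_fst
  have h4 : ContDiffAt ℝ ∞ (fun q : Mo => a1 q.1) q :=
    ContDiffAt.comp (g := a1) (f := Prod.fst) q h1 contDiffAt_fst
  exact (h3.mul (h2 0)).add (h4.mul (h2 1))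

theorem contDiffAt_UM (he : Sep e) (hs : Sm (ep q.1)) (hX : ‖XN q‖ < 3 / 2)
    (hY : ‖YN k q‖ < 3 / 2) (hy : q.1.1 k ≠ 0) (h0 : ContDiffAt ℝ ∞ a0 q.1)
    (h1 : ContDiffAt ℝ ∞ a1 q.1) (hw : ContDiffAt ℝ ∞ w q.1) :
    ContDiffAt ℝ ∞ (UM e k a0 a1 w ξ β) q := by
  have g1 := contDiffAt_RM (k := k) he hs h0 h1 contDiff_XN.contDiffAt hX
  have g2 := contDiffAt_RM (k := k) he hs h0 h1 (contDiff_YN k).contDiffAt hY
  have g1' : ContDiffAt ℝ ∞ (fun q : Mo => (RM e k a0 a1 q.1 (XN q)).re) q :=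
    Complex.reCLM.contDiff.contDiffAt.comp q g1
  have g2' : ContDiffAt ℝ ∞ (fun q : Mo => (RM e k a0 a1 q.1 (YN k q)).re) q :=
    Complex.reCLM.contDiff.contDiffAt.comp q g2
  have g3 : ContDiffAt ℝ ∞ (fun q : Mo => w q.1) q :=
    ContDiffAt.comp (g := w) (f := Prod.fst) q hw contDiffAt_fst
  have g4 : ContDiffAt ℝ ∞ (fun q : Mo => q.1.1 k) q := by fun_prop
  have g5 : ContDiffAt ℝ ∞ (fun q : Mo => 1 - 2 * q.2.1 / q.1.1 k) q := by
    refine contDiffAt_const.sub (ContDiffAt.div ?_ g4 hy)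
    fun_prop
  have g6 : ContDiffAt ℝ ∞ (fun q : Mo => β / Real.pi * (q.2.2 - q.1.2 k / 2)) q := by
    fun_prop
  exact ((contDiffAt_const.add (g3.mul g5)).sub g6).add (g1'.sub g2')

/-! ### the concrete coefficients -/

section coeff

variable (he : Sep e) (ell : Fin 3 → Fin 3 → ℂ) (ξv βv : Fin 3 → ℝ)

/-- the coefficients of the flat form at theta -/
def aK (m : Fin 2) (p : Pa (Fin 3)) : ℂ :=
  (cmIn he ell).af (ep p) (cc (cmIn he ell).kapData ξv βv p) m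

/-- the slope -/
def wK (k : Fin 3) (p : Pa (Fin 3)) : ℝ := (cmIn he ell).kapData.wf ξv βv p k

variable {he ell ξv βv}

theorem contDiffAt_cc {m : ℝ} {p : Pa (Fin 3)} (h : (cmIn he ell).kapData.Big m p) :
    ContDiffAt ℝ ∞ (cc (cmIn he ell).kapData ξv βv) p := by
  have h1 : ContDiffAt ℝ ∞ ((cmIn he ell).kapData.xx ξv βv) p :=
    (contDiffAt_ss h ξv βv).fst
  refine contDiffAt_pi.2 fun l => ?_
  have h2 : ContDiffAt ℝ ∞ (fun p => (cmIn he ell).kapData.xx ξv βv p l) p :=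
    contDiffAt_pi.1 h1 l
  exact (Complex.ofRealCLM.contDiff.contDiffAt.comp p h2).add contDiffAt_const

theorem contDiffAt_aK {m : ℝ} {p : Pa (Fin 3)} (h : (cmIn he ell).kapData.Big m p) (i : Fin 2) :
    ContDiffAt ℝ ∞ (aK he ell ξv βv i) p := by
  have h0 : ‖ep p‖ ≤ (cmIn he ell).rad := h.ep_lt.le
  have h1 : ContDiffAt ℝ ∞ (fun p => (cmIn he ell).af (ep p)) p :=
    ((cmIn he ell).contDiffAt_af ((cmIn he ell).mem_ball_of h0)
      ((cmIn he ell).Δ_ne h0)).comp p (contDiff_ep (n := ∞)).contDiffAt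
  have h2 := contDiffAt_cc (ξv := ξv) (βv := βv) h
  let B : ((Fin 3 → ℂ) →L[ℂ] (Fin 2 → ℂ)) →L[ℝ] (Fin 3 → ℂ) →L[ℝ] (Fin 2 → ℂ) :=
    ContinuousLinearMap.restrictScalarsL ℂ (Fin 3 → ℂ) (Fin 2 → ℂ) ℝ ℝ
  have h3 : ContDiffAt ℝ ∞ (fun p => B ((cmIn he ell).af (ep p))
      (cc (cmIn he ell).kapData ξv βv p)) p :=
    (B.contDiff.contDiffAt.comp p h1).clm_apply h2
  exact contDiffAt_pi.1 h3 i

theorem contDiffAt_wK {m : ℝ} {p : Pa (Fin 3)} (h : (cmIn he ell).kapData.Big m p) (k : Fin 3) :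
    ContDiffAt ℝ ∞ (wK he ell ξv βv k) p := by
  have h1 : ContDiffAt ℝ ∞ ((cmIn he ell).kapData.xx ξv βv) p :=
    (contDiffAt_ss h ξv βv).fst
  have h2 : ContDiffAt ℝ ∞ (fun p => (cmIn he ell).kapData.xx ξv βv p k) p :=
    contDiffAt_pi.1 h1 k
  have h3 : ContDiffAt ℝ ∞ (fun p : Pa (Fin 3) => p.1 k / 2) p := by fun_prop
  exact h3.mul h2

theorem sum_cc {m : ℝ} {p : Pa (Fin 3)} (h : (cmIn he ell).kapData.Big m p)
    (hβ : ∑ k, βv k = 0) : ∑ l, cc (cmIn he ell).kapData ξv βv p l = 0 := by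
  have h1 := (isSol h ξv βv).2
  unfold cc ib
  rw [Finset.sum_add_distrib, ← Complex.ofReal_sum, h1]
  have h2 : ∑ l : Fin 3, I * (βv l : ℂ) / (Real.pi : ℂ) =
      I * ((∑ l, βv l : ℝ) : ℂ) / (Real.pi : ℂ) := by
    push_cast
    rw [Finset.mul_sum, Finset.sum_div]
  rw [h2, hβ]
  simp

theorem hc_K {m : ℝ} {p : Pa (Fin 3)} (h : (cmIn he ell).kapData.Big m p)
    (hβ : ∑ k, βv k = 0) (k : Fin 3) :
    ((2 * wK he ell ξv βv k p / p.1 k : ℝ) : ℂ) + I * ((βv k / Real.pi : ℝ) : ℂ) =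
      aK he ell ξv βv 0 p * H598.c0 (hn e (ep p) 0 k) (3 / 2) (ep p k) +
        aK he ell ξv βv 1 p * H598.c0 (hn e (ep p) 1 k) (3 / 2) (ep p k) := by
  have hs : Sm (ep p) := sm_of_rad he ell h.ep_lt.le
  have h1 := af_cm_theta he ell h.ep_lt (sum_cc (ξv := ξv) h hβ) k
  rw [← cm_eq_c0 he hs 0 k, ← cm_eq_c0 he hs 1 k]
  unfold aK
  rw [h1]
  have hy : p.1 k ≠ 0 := by
    have a1 := h.pos
    have a2 := h.le k
    intro h0
    rw [h0] at a2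
    linarith
  have h2 : 2 * wK he ell ξv βv k p / p.1 k = (cmIn he ell).kapData.xx ξv βv p k := by
    unfold wK H722.KapData.wf
    field_simp
  rw [h2]
  unfold cc ib
  push_cast
  ring

/-- the domain of the base -/
def PK (he : Sep e) (ell : Fin 3 → Fin 3 → ℂ) (bt : Pa (Fin 3) → Bs) (O : Set Bs) :
    Set (Pa (Fin 3)) := {p | (∃ m, (cmIn he ell).kapData.Big m p) ∧ bt p ∈ O}

theorem isOpen_PK {bt : Pa (Fin 3) → Bs} (hb : Continuous bt) {O : Set Bs} (hO : IsOpen O) :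
    IsOpen (PK he ell bt O) := by
  rw [isOpen_iff_mem_nhds]
  rintro p ⟨⟨m, h1⟩, h2⟩
  filter_upwards [eventually_big h1, (hO.preimage hb).mem_nhds h2] with r h3 h4
  exact ⟨h3, h4⟩

/-- **the data at theta** -/
theorem nDataK {O : Set Bs} {η : Bs → ℂ → ℂ → (Bs × ℂ →L[ℝ] ℝ)} {A : Bs → (ℂ × ℂ →L[ℝ] ℝ)}
    {bt : Pa (Fin 3) → Bs} (hF : FlatOn O η A) (hb : ContDiff ℝ ∞ bt)
    (hff : ∀ p x, ff (bt p, x) = ∏ l, ((x - e l) ^ 2 - ep p l)) (hβ : ∑ k, βv k = 0)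
    (hA : ∀ p ∈ PK he ell bt O, ∀ u v, A (bt p) (u, v) =
      (aK he ell ξv βv 0 p * u + aK he ell ξv βv 1 p * v).re) (k : Fin 3) :
    NData O η A e k (PK he ell bt O) bt (aK he ell ξv βv 0) (aK he ell ξv βv 1)
      (wK he ell ξv βv k) (βv k) where
  flat := hF
  sep := he
  op := isOpen_PK hb.continuous hF.isOpen
  mem := fun _ h => h.2
  sm := fun _ h => sm_of_rad he ell h.1.choose_spec.ep_lt.le
  smooth := fun _ _ => hb.contDiffAt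
  hff := fun p _ x => hff p x
  hA := hA
  hc := fun _ h => hc_K h.1.choose_spec hβ k

/-- **(U) on the necks with 722's functions** -/
theorem neckK {O : Set Bs} {η : Bs → ℂ → ℂ → (Bs × ℂ →L[ℝ] ℝ)} {A : Bs → (ℂ × ℂ →L[ℝ] ℝ)}
    {bt : Pa (Fin 3) → Bs} (hF : FlatOn O η A) (hb : ContDiff ℝ ∞ bt)
    (hff : ∀ p x, ff (bt p, x) = ∏ l, ((x - e l) ^ 2 - ep p l)) (hβ : ∑ k, βv k = 0)
    (hA : ∀ p ∈ PK he ell bt O, ∀ u v, A (bt p) (u, v) =
      (aK he ell ξv βv 0 p * u + aK he ell ξv βv 1 p * v).re) (k : Fin 3) (ξ : ℝ) {q : Mo}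
    (hq : q ∈ OmN k (PK he ell bt O)) :
    ContDiffAt ℝ ∞ (UM e k (aK he ell ξv βv 0) (aK he ell ξv βv 1) (wK he ell ξv βv k) ξ (βv k)) q ∧
    pbe η (psN bt e k) (vN e k) q =
      fderiv ℝ (UM e k (aK he ell ξv βv 0) (aK he ell ξv βv 1) (wK he ell ξv βv k) ξ (βv k)) q := by
  have D := nDataK (ξv := ξv) hF hb hff hβ hA k
  have hU : ∀ q ∈ OmN k (PK he ell bt O), ContDiffAt ℝ ∞
      (UM e k (aK he ell ξv βv 0) (aK he ell ξv βv 1) (wK he ell ξv βv k) ξ (βv k)) q := by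
    intro q hq
    obtain ⟨h1, h2, h3, _⟩ := hq
    have hy := D.two_lt h1
    refine contDiffAt_UM he (D.sm _ h1) h2 h3 (by intro h; rw [h] at hy; linarith)
      (contDiffAt_aK h1.1.choose_spec 0) (contDiffAt_aK h1.1.choose_spec 1)
      (contDiffAt_wK h1.1.choose_spec k)
  exact ⟨hU q hq, neck_eq D (fun q hq => (hU q hq).of_le two_le) hq⟩

end coeff

end

end Vale.Agent.P273.H339
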