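import Vale.Agent.P273.H339.URegion
import Vale.Agent.P273.H132.LgU
import Vale.Agent.P273.H517.Bd

/-!
# P273, row (U), necks: the pull-back of the flat form at a mark of a neck is the derivative of the
explicit potential of H132
-/

namespace Vale.Agent.P273.H339

open scoped ContDiff Topology
open Set Filter Complex
open Vale.Agent.P273.H214 (Bs ff FlatOn IsBr FlatFam)
open Vale.Agent.P273.H722 (Pa ep)
open Vale.Agent.P273.H517 (Rn hN hN_apply)
open Vale.Agent.P273.H598 (rz)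
open Vale.Agent.P273.H630 (D0 I0 ell0 sep_ctr ysh cmIn)
open Vale.Agent.P273.H562 (Co W rootsL emb posE shE xe bt Adm)
open Vale.Agent.P273.H803 (posj LegF)
open Vale.Agent.P273.H973 (prj E1)
open Vale.Agent.P273.H95 (ctr IsCl L)
open Vale.Agent.P273.H681 (XX)
open Vale.Agent.P273.H132 (UData UNp SX TX bP xeF btF)
open Vale.Agent.P273.H545 (cc)

noncomputable section

/-! ### the bases -/

/-- the open set of bases -/
def PT (N : ℝ) : Set (Pa (Fin 3)) :=
  {p | (∀ k, N < p.1 k - 2 * Real.log 16) ∧ ∀ k, -(3 * Real.pi) < p.2 k ∧ p.2 k < Real.pi}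

theorem isOpen_PT (N : ℝ) : IsOpen (PT N) := by
  have h : PT N = (⋂ k, {p : Pa (Fin 3) | N < p.1 k - 2 * Real.log 16}) ∩
      ((⋂ k, {p : Pa (Fin 3) | -(3 * Real.pi) < p.2 k}) ∩
        ⋂ k, {p : Pa (Fin 3) | p.2 k < Real.pi}) := by
    ext p
    simp only [PT, mem_ofPred_eq, mem_inter_iff, mem_iInter, forall_and]
  rw [h]
  refine (isOpen_iInter_of_finite fun k => isOpen_lt continuous_const (by fun_prop)).inter
    ((isOpen_iInter_of_finite fun k => isOpen_lt continuous_const (by fun_prop)).inter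
      (isOpen_iInter_of_finite fun k => isOpen_lt (by fun_prop) continuous_const))

theorem btT_mem_XX' {p : Pa (Fin 3)} (hy : ∀ k, 0 < p.1 k)
    (hα : ∀ k, -(3 * Real.pi) < p.2 k ∧ p.2 k < Real.pi) : btT p ∈ XX := by
  unfold btT
  refine th_mem_XX (fun k => ?_) fun k hk => ?_
  · rw [Complex.norm_exp]
    have e1 : ((-(p.1 k : ℂ) + (p.2 k : ℂ) * I) / 2).re = -(p.1 k) / 2 := by
      simp
    rw [e1, ← Real.exp_zero]
    exact Real.exp_lt_exp.2 (by linarith [hy k])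
  · have e1 : (-(p.1 k : ℂ) + (p.2 k : ℂ) * I) / 2 =
        ((-(p.1 k) / 2 : ℝ) : ℂ) + ((p.2 k / 2 : ℝ) : ℂ) * I := by
      push_cast
      ring
    rw [e1, Complex.exp_add, ← Complex.ofReal_exp, Complex.re_ofReal_mul,
      Complex.exp_ofReal_mul_I_re] at hk
    rw [e1, Complex.exp_add, ← Complex.ofReal_exp, Complex.im_ofReal_mul,
      Complex.exp_ofReal_mul_I_im]
    have h1 := Real.exp_pos (-(p.1 k) / 2)
    have h2 : Real.cos (p.2 k / 2) = 0 := by
      rcases mul_eq_zero.1 hk with h | h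
      · exact absurd h h1.ne'
      · exact h
    refine mul_neg_of_pos_of_neg h1 ?_
    obtain ⟨g1, g2⟩ := hα k
    by_cases h3 : -(Real.pi / 2) < p.2 k / 2
    · have := Real.cos_pos_of_mem_Ioo (x := p.2 k / 2) ⟨h3, by linarith⟩
      linarith
    · push Not at h3
      have h5 : Real.sin (p.2 k / 2 + Real.pi) = -Real.sin (p.2 k / 2) := Real.sin_add_pi _
      by_cases h6 : p.2 k / 2 + Real.pi ≤ 0
      · have h7 : 0 < Real.cos (p.2 k / 2 + Real.pi) := by
          refine Real.cos_pos_of_mem_Ioo ⟨by linarith, by linarith [Real.pi_pos]⟩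
        rw [Real.cos_add_pi, h2] at h7
        linarith
      · push Not at h6
        have h7 := Real.sin_pos_of_pos_of_lt_pi h6 (by linarith [Real.pi_pos])
        linarith

theorem log16_nonneg : 0 ≤ Real.log 16 := Real.log_nonneg (by norm_num)

/-- a length beyond which the base is fine -/
theorem exists_PT : ∃ N : ℝ, 1 ≤ N ∧ PT N ⊆ PK sep_ctr ell0 btT XX := by
  obtain ⟨N, hN1, hN⟩ := H630.exists_N0
  refine ⟨N, hN1, ?_⟩
  rintro ⟨y, α⟩ ⟨h1, h2⟩
  have hl := log16_nonneg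
  refine ⟨?_, btT_mem_XX' (fun k => by have := h1 k; simp only at this ⊢; linarith) h2⟩
  have h3 := (hN (fun k => y k - 2 * Real.log 16) α fun k => (h1 k).le).2.2
  have h4 : ysh (fun k => y k - 2 * Real.log 16) = y := by
    funext k
    unfold ysh
    ring
  rw [h4] at h3
  exact ⟨_, h3⟩

theorem PT_mono {N N' : ℝ} (h : N ≤ N') : PT N' ⊆ PT N :=
  fun _ hp => ⟨fun k => h.trans_lt (hp.1 k), hp.2⟩

/-! ### the neck theorem on any open set of bases -/

section gen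

variable {e : Fin 3 → ℂ} {he : H517.Sep e} {ell : Fin 3 → Fin 3 → ℂ} {ξv βv : Fin 3 → ℝ}

theorem neckK' {O : Set Bs} {η : Bs → ℂ → ℂ → (Bs × ℂ →L[ℝ] ℝ)} {A : Bs → (ℂ × ℂ →L[ℝ] ℝ)}
    {bt : Pa (Fin 3) → Bs} {P : Set (Pa (Fin 3))} (hF : FlatOn O η A) (hb : ContDiff ℝ ∞ bt)
    (hff : ∀ p x, ff (bt p, x) = ∏ l, ((x - e l) ^ 2 - ep p l)) (hβ : ∑ k, βv k = 0)
    (hP : IsOpen P) (hPK : P ⊆ PK he ell bt O)
    (hA : ∀ p ∈ P, ∀ u v, A (bt p) (u, v) =
      (aK he ell ξv βv 0 p * u + aK he ell ξv βv 1 p * v).re) (k : Fin 3) (ξ : ℝ) {q : Mo}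
    (hq : q ∈ OmN k P) :
    ContDiffAt ℝ ∞ (UM e k (aK he ell ξv βv 0) (aK he ell ξv βv 1) (wK he ell ξv βv k) ξ (βv k)) q ∧
    pbe η (psN bt e k) (vN e k) q =
      fderiv ℝ (UM e k (aK he ell ξv βv 0) (aK he ell ξv βv 1) (wK he ell ξv βv k) ξ (βv k)) q := by
  have D : NData O η A e k P bt (aK he ell ξv βv 0) (aK he ell ξv βv 1)
      (wK he ell ξv βv k) (βv k) :=
    { flat := hF
      sep := he
      op := hP
      mem := fun _ h => (hPK h).2
      sm := fun _ h => H630.sm_of_rad he ell (hPK h).1.choose_spec.ep_lt.le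
      smooth := fun _ _ => hb.contDiffAt
      hff := fun p _ x => hff p x
      hA := hA
      hc := fun _ h => hc_K (hPK h).1.choose_spec hβ k }
  have hU : ∀ q ∈ OmN k P, ContDiffAt ℝ ∞
      (UM e k (aK he ell ξv βv 0) (aK he ell ξv βv 1) (wK he ell ξv βv k) ξ (βv k)) q := by
    intro q hq
    obtain ⟨h1, h2, h3, _⟩ := hq
    have hy := D.two_lt h1
    refine contDiffAt_UM he (D.sm _ h1) h2 h3 (by intro h; rw [h] at hy; linarith)
      (contDiffAt_aK (hPK h1).1.choose_spec 0) (contDiffAt_aK (hPK h1).1.choose_spec 1)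
      (contDiffAt_wK (hPK h1).1.choose_spec k)
  exact ⟨hU q hq, neck_eq D (fun q hq => (hU q hq).of_le two_le) hq⟩

end gen

/-! ### the region -/

variable (R : H95.Region) (m : ∀ k, Fin (R.n k + 1))

theorem contDiff_posE : ContDiff ℝ ∞ (posE R m) := by
  have h1 : ContDiff ℝ ∞ fun p : Co R m => rootsL p.2.2.1 p.2.2.2.1 := by
    have h2 : (fun p : Co R m => rootsL p.2.2.1 p.2.2.2.1) =
        fun p : Co R m => btT (ysh p.2.2.1, p.2.2.2.1) := by
      funext p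
      exact rootsL_eq _ _
    rw [h2]
    refine contDiff_btT.comp (ContDiff.prodMk ?_ (by fun_prop))
    refine contDiff_pi.2 fun l => ?_
    have h3 : ContDiff ℝ ∞ fun p : Co R m => p.2.2.1 l := by fun_prop
    unfold ysh
    exact h3.add contDiff_const
  refine h1.prodMk (contDiff_pi.2 fun j => ?_)
  rcases hj : R.pl j with k | s
  · have h2 : (fun p : Co R m => R.pos (emb R m p) j) =
        fun p => xN ctr k (mP R m k (H562.rkF R hj) p) := by
      funext p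
      exact pos_mP hj p
    rw [h2]
    exact (contDiff_xN ctr k).comp (contDiff_mP k _)
  · have h2 : (fun p : Co R m => R.pos (emb R m p) j) =
        fun p : Co R m => p.2.2.2.2 ⟨j, by simp [hj]⟩ := by
      funext p
      rw [H732.pos_core R _ hj, emb_eq, H732.scl_apply]
      rfl
    rw [h2]
    fun_prop

/-- the pull-back of the flat form at the mark `j` -/
def lgF (Φ : FlatFam) : LegF := fun R m S j ξ p =>
  ((Φ.η ξ (posj R m j p).1 (posj R m j p).2 (shE R m S p j)).comp (prj j)).comp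
    (fderiv ℝ (posE R m) p)

variable {R m}

theorem fderiv_posj (j : L) (p : Co R m) :
    fderiv ℝ (posj R m j) p = (prj j).comp (fderiv ℝ (posE R m) p) := by
  have h : posj R m j = fun p => prj j (posE R m p) := rfl
  rw [h]
  exact ((prj j).hasFDerivAt.comp p
    ((contDiff_posE R m).contDiffAt.differentiableAt (by simp)).hasFDerivAt).fderiv

theorem lgF_eq (Φ : FlatFam) (S : L → Bool) (j : L) (ξ : Fin 6 → ℝ) (p : Co R m) :
    lgF Φ R m S j ξ p = pbe (Φ.η ξ) (posj R m j) (fun p => shE R m S p j) p := by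
  unfold lgF pbe
  rw [fderiv_posj]
  rfl

theorem mP_mem {j : L} {k : Fin 3} (h : R.pl j = Sum.inl k) {S : L → Bool} {N : ℝ} (hN : 0 ≤ N)
    {p : Co R m} (hp : Adm R m S (N + 1) p) :
    mP R m k (H562.rkF R h) p ∈ OmN k (PT N) := by
  obtain ⟨h1, h2, h3, _, h5⟩ := hp
  have hul : ∀ l, 0 ≤ (W R m).ul p l := fun l => (W R m).ul_nonneg h1 l (by linarith [h2 l])
  have hpi := Real.pi_gt_three
  refine ⟨⟨fun l => ?_, fun l => ⟨?_, ?_⟩⟩, ?_, ?_, ?_⟩
  · show N < p.2.2.1 l + 2 * Real.log 16 - 2 * Real.log 16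
    linarith [h2 l]
  · show -(3 * Real.pi) < p.2.2.2.1 l
    linarith [(h3 l).1]
  · show p.2.2.2.1 l < Real.pi
    linarith [(h3 l).2]
  · rw [XN_mP, norm_mul]
    have h7 : ‖(1 / 16 : ℂ)‖ = 1 / 16 := by norm_num
    rw [h7]
    have h8 : ‖cexp (H732.wreg.LX R.Cm R.n m k (H562.rkF R h) p)‖ ≤ 1 :=
      (W R m).norm_exp_lS_le_one h1 hul _
    linarith
  · rw [YN_mP, norm_mul]
    have h7 : ‖(1 / 16 : ℂ)‖ = 1 / 16 := by norm_num
    rw [h7]
    have h8 : ‖cexp (H732.wreg.LY R.Cm R.n m k (H562.rkF R h) p)‖ ≤ 1 :=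
      (W R m).norm_exp_lS_le_one h1 hul _
    linarith
  · intro h6
    apply h5 j
    rw [shE_mP h, vN_eq, h6]
    ring

/-- the form `Φ` has the coefficients of H630 / H722 near theta -/
def CoefOK (Φ : FlatFam) (N : ℝ) : Prop := ∀ ξ, IsCl ξ → ∀ p ∈ PT N, ∀ u v : ℂ,
  Φ.A ξ (btT p) (u, v) = (I0.af (ep p) (cc D0 (xeF ξ) (btF ξ) p) 0 * u +
    I0.af (ep p) (cc D0 (xeF ξ) (btF ξ) p) 1 * v).re

/-- the same in the coordinates `(y, α)` -/
theorem coefOK_of {Φ : FlatFam} {N : ℝ} (h : ∀ ξ, IsCl ξ → ∀ y α : Fin 3 → ℝ, (∀ k, N < y k) →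
    (∀ k, -(3 * Real.pi) < α k ∧ α k < Real.pi) → ∀ u v : ℂ,
    Φ.A ξ (rootsL y α) (u, v) =
      (H630.af0 (H630.eps0 y α) (cc D0 (xeF ξ) (btF ξ) (ysh y, α)) 0 * u +
        H630.af0 (H630.eps0 y α) (cc D0 (xeF ξ) (btF ξ) (ysh y, α)) 1 * v).re) :
    CoefOK Φ N := by
  rintro ξ hξ ⟨y, α⟩ ⟨h1, h2⟩ u v
  have h3 := h ξ hξ (fun k => y k - 2 * Real.log 16) α h1 h2 u v
  have h4 : ysh (fun k => y k - 2 * Real.log 16) = y := by
    funext k
    unfold ysh
    ring
  rw [rootsL_eq, H630.eps0_eq, h4] at h3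
  exact h3

theorem CoefOK.mono {Φ : FlatFam} {N N' : ℝ} (h : CoefOK Φ N) (hN : N ≤ N') : CoefOK Φ N' :=
  fun ξ hξ p hp => h ξ hξ p (PT_mono hN hp)

theorem sum_btF {ξ : Fin 6 → ℝ} (h : IsCl ξ) : ∑ k, btF ξ k = 0 := by
  have h1 := h
  unfold IsCl at h1
  rw [Fin.sum_univ_six] at h1
  have h2 : ∑ k, btF ξ k = (ξ 1 - ξ 0) + (ξ 3 - ξ 2) + (ξ 5 - ξ 4) := by
    rw [Fin.sum_univ_three]
    rfl
  rw [h2]
  norm_num at h1
  linarith

/-- the explicit potential of H132 is the potential of H339 in the model -/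
theorem UNp_eq {U : UData} (hD : U.D = D0) {k : Fin 3} (hh : U.h k = hN sep_ctr ell0 k) {j : L}
    (h : R.pl j = Sum.inl k) (ξ : Fin 6 → ℝ) :
    UNp m U ξ h = fun p => UM ctr k (aK sep_ctr ell0 (xeF ξ) (btF ξ) 0)
      (aK sep_ctr ell0 (xeF ξ) (btF ξ) 1) (wK sep_ctr ell0 (xeF ξ) (btF ξ) k) (xe ξ k) (bt ξ k)
      (mP R m k (H562.rkF R h) p) := by
  funext p
  have key : ∀ X : ℂ, X * hN sep_ctr ell0 k (ep (mP R m k (H562.rkF R h) p).1, X)
      (cc D0 (xeF ξ) (btF ξ) (mP R m k (H562.rkF R h) p).1) =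
      RM ctr k (aK sep_ctr ell0 (xeF ξ) (btF ξ) 0) (aK sep_ctr ell0 (xeF ξ) (btF ξ) 1)
        (mP R m k (H562.rkF R h) p).1 X := by
    intro X
    have h1 := hN_apply sep_ctr ell0 k (ep (mP R m k (H562.rkF R h) p).1, X)
      (cc D0 (xeF ξ) (btF ξ) (mP R m k (H562.rkF R h) p).1)
    rw [Fin.sum_univ_two] at h1
    exact h1
  unfold UNp H803.UN UM H803.Zf
  rw [hh, hD, ← key, ← key]
  rfl

/-- **(U) on the necks, in the region charts** -/
theorem lgF_neck {Φ : FlatFam} {N₁ : ℝ} (hΦ : CoefOK Φ N₁) :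
    ∃ N₀ : ℝ, 1 ≤ N₀ ∧ ∀ (U : UData), U.D = D0 → (∀ k, U.h k = hN sep_ctr ell0 k) →
      ∀ (R : H95.Region) (m : ∀ k, Fin (R.n k + 1)) (S : L → Bool) (p : Co R m),
      Adm R m S N₀ p → ∀ ξ, IsCl ξ → ∀ (j : L) (k : Fin 3) (h : R.pl j = Sum.inl k),
      ContDiffAt ℝ ∞ (UNp m U ξ h) p ∧ lgF Φ R m S j ξ p = fderiv ℝ (UNp m U ξ h) p := by
  obtain ⟨N, hN1, hN⟩ := exists_PT
  set N' := max N N₁ with hN'
  refine ⟨N' + 1, by have := le_max_left N N₁; linarith, ?_⟩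
  intro U hD hh R m S p hp ξ hξ j k h
  have hq : mP R m k (H562.rkF R h) p ∈ OmN k (PT N') :=
    mP_mem h (by have := le_max_left N N₁; linarith) hp
  have hsub : PT N' ⊆ PK sep_ctr ell0 btT XX := (PT_mono (le_max_left _ _)).trans hN
  have key := neckK' (he := sep_ctr) (ell := ell0) (ξv := xeF ξ) (βv := btF ξ)
    (Φ.flat ξ hξ) contDiff_btT ff_btT (sum_btF hξ) (isOpen_PT N') hsub
    (fun q hq u v => (hΦ.mono (le_max_right _ _)) ξ hξ q hq u v) k (xe ξ k) hq
  have e1 := UNp_eq (m := m) hD (hh k) h ξ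
  have hm : ContDiffAt ℝ ∞ (mP R m k (H562.rkF R h)) p := (contDiff_mP k _).contDiffAt
  refine ⟨?_, ?_⟩
  · rw [e1]
    exact ContDiffAt.comp (g := UM ctr k (aK sep_ctr ell0 (xeF ξ) (btF ξ) 0)
      (aK sep_ctr ell0 (xeF ξ) (btF ξ) 1) (wK sep_ctr ell0 (xeF ξ) (btF ξ) k) (xe ξ k) (bt ξ k))
      p key.1 hm
  · rw [lgF_eq, e1]
    have e2 : posj R m j = fun p => psN btT ctr k (mP R m k (H562.rkF R h) p) := by
      funext p
      exact posj_mP h p
    have e3 : (fun p => shE R m S p j) = fun p => vN ctr k (mP R m k (H562.rkF R h) p) := by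
      funext p
      exact shE_mP h S p
    have hps : ContDiff ℝ ∞ (psN btT ctr k) := by
      unfold psN
      exact (contDiff_btT.comp contDiff_fst).prodMk (contDiff_xN ctr k)
    rw [e2, e3, pbe_comp (hps.contDiffAt.differentiableAt (by simp))
      (hm.differentiableAt (by simp)), key.2]
    exact (fderiv_fun_comp p (key.1.differentiableAt (by simp))
      (hm.differentiableAt (by simp))).symm

end

end Vale.Agent.P273.H339
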