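import Vale.Agent.P273.H339.Closed
import Vale.Agent.P273.H803.LegNeck
import Vale.Agent.P273.H517.Core3
import Vale.Agent.P273.H722.Theta

/-!
# P273, row (U), necks: the pulled-back flat form is the differential of the neck potential

Model coordinates of the neck `k`: `q = (p, (S, Θ))`, `p = (y, α)`, `X = exp (- S + i Θ)`,
`Y = exp (- (y k - S) + i (α k - Θ))`, `x = e k + (X + Y) / 2`.  The reflection `X ↔ Y` changes the
sheet; the form is odd; so the base component of the difference vanishes.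
-/

namespace Vale.Agent.P273.H339

open scoped ContDiff Topology
open Set Filter Complex
open Vale.Agent.P273.H214 (Bs ff FlatOn IsBr)
open Vale.Agent.P273.H722 (Pa ep norm_ep_apply hasFDerivAt_ep dep)
open Vale.Agent.P273.H517 (Sep Sm ps hn Rn far_of lt_sq_of differentiableAt_ps)
open Vale.Agent.P273.H598 (rz c0 q0 P0 rz_sq rz_ne_zero split hasDerivAt_P0 differentiableAt_rz)
open Vale.Agent.P273.H803 (ex norm_ex hasFDerivAt_ex)

noncomputable section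

/-- model space: base coordinates, then the logarithm of the neck coordinate -/
abbrev Mo : Type := Pa (Fin 3) × (ℝ × ℝ)

/-- the neck coordinate -/
def XN (q : Mo) : ℂ := ex (fun q : Mo => q.2.1) (fun q : Mo => q.2.2) q
/-- the opposite neck coordinate -/
def YN (k : Fin 3) (q : Mo) : ℂ :=
  ex (fun q : Mo => q.1.1 k - q.2.1) (fun q : Mo => q.1.2 k - q.2.2) q
/-- the point -/
def xN (e : Fin 3 → ℂ) (k : Fin 3) (q : Mo) : ℂ := e k + (XN q + YN k q) / 2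
/-- the sheet -/
def vN (e : Fin 3 → ℂ) (k : Fin 3) (q : Mo) : ℂ :=
  (∏ l ∈ Finset.univ.erase k, rz (ep q.1 l) (xN e k q - e l)) * ((XN q - YN k q) / 2)
/-- (roots, point) -/
def psN (bt : Pa (Fin 3) → Bs) (e : Fin 3 → ℂ) (k : Fin 3) (q : Mo) : Bs × ℂ :=
  (bt q.1, xN e k q)
/-- the domain -/
def OmN (k : Fin 3) (P : Set (Pa (Fin 3))) : Set Mo :=
  {q | q.1 ∈ P ∧ ‖XN q‖ < 3 / 2 ∧ ‖YN k q‖ < 3 / 2 ∧ XN q ≠ YN k q}
/-- the reflection -/
def TT (k : Fin 3) : Mo →L[ℝ] Mo :=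
  (ContinuousLinearMap.fst ℝ (Pa (Fin 3)) (ℝ × ℝ)).prod
    ((((ContinuousLinearMap.proj (R := ℝ) (φ := fun _ : Fin 3 => ℝ) k).comp
      ((ContinuousLinearMap.fst ℝ (Fin 3 → ℝ) (Fin 3 → ℝ)).comp
        (ContinuousLinearMap.fst ℝ (Pa (Fin 3)) (ℝ × ℝ)))) -
      (ContinuousLinearMap.fst ℝ ℝ ℝ).comp (ContinuousLinearMap.snd ℝ (Pa (Fin 3)) (ℝ × ℝ))).prod
    (((ContinuousLinearMap.proj (R := ℝ) (φ := fun _ : Fin 3 => ℝ) k).comp
      ((ContinuousLinearMap.snd ℝ (Fin 3 → ℝ) (Fin 3 → ℝ)).comp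
        (ContinuousLinearMap.fst ℝ (Pa (Fin 3)) (ℝ × ℝ)))) -
      (ContinuousLinearMap.snd ℝ ℝ ℝ).comp (ContinuousLinearMap.snd ℝ (Pa (Fin 3)) (ℝ × ℝ))))

theorem TT_apply (k : Fin 3) (q : Mo) : TT k q = (q.1, (q.1.1 k - q.2.1, q.1.2 k - q.2.2)) := rfl

theorem XN_TT (k : Fin 3) (q : Mo) : XN (TT k q) = YN k q := rfl

theorem YN_TT (k : Fin 3) (q : Mo) : YN k (TT k q) = XN q := by
  unfold YN XN ex
  rw [TT_apply]
  simp only [sub_sub_cancel]

theorem XN_eq (q : Mo) : XN q = cexp (-(q.2.1 : ℂ) + I * (q.2.2 : ℂ)) := rfl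

theorem YN_eq (k : Fin 3) (q : Mo) :
    YN k q = cexp (-((q.1.1 k - q.2.1 : ℝ) : ℂ) + I * ((q.1.2 k - q.2.2 : ℝ) : ℂ)) := rfl

theorem XN_mul_YN (k : Fin 3) (q : Mo) : XN q * YN k q = ep q.1 k := by
  rw [XN_eq, YN_eq, ← Complex.exp_add]
  unfold ep
  congr 1
  push_cast
  ring

theorem norm_XN (q : Mo) : ‖XN q‖ = Real.exp (-q.2.1) := norm_ex _ _ q

theorem norm_YN (k : Fin 3) (q : Mo) : ‖YN k q‖ = Real.exp (-(q.1.1 k - q.2.1)) := norm_ex _ _ q

theorem XN_ne_zero (q : Mo) : XN q ≠ 0 := Complex.exp_ne_zero _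

theorem YN_ne_zero (k : Fin 3) (q : Mo) : YN k q ≠ 0 := Complex.exp_ne_zero _

theorem contDiff_XN : ContDiff ℝ ∞ XN := by
  have h : XN = fun q : Mo => cexp (-(Complex.ofRealCLM q.2.1) + I * Complex.ofRealCLM q.2.2) := rfl
  rw [h]
  have h1 : ContDiff ℝ ∞ fun q : Mo => (Complex.ofRealCLM q.2.1) :=
    Complex.ofRealCLM.contDiff.comp (by fun_prop)
  have h2 : ContDiff ℝ ∞ fun q : Mo => (Complex.ofRealCLM q.2.2) :=
    Complex.ofRealCLM.contDiff.comp (by fun_prop)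
  exact (h1.neg.add (contDiff_const.mul h2)).cexp

theorem YN_comp (k : Fin 3) : YN k = fun q => XN (TT k q) := rfl

theorem contDiff_YN (k : Fin 3) : ContDiff ℝ ∞ (YN k) := by
  rw [YN_comp]
  exact contDiff_XN.comp (TT k).contDiff

theorem contDiff_xN (e : Fin 3 → ℂ) (k : Fin 3) : ContDiff ℝ ∞ (xN e k) := by
  unfold xN
  exact contDiff_const.add ((contDiff_XN.add (contDiff_YN k)).div_const _)

theorem xN_TT (e : Fin 3 → ℂ) (k : Fin 3) (q : Mo) : xN e k (TT k q) = xN e k q := by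
  unfold xN
  rw [XN_TT, YN_TT]
  ring

theorem vN_TT (e : Fin 3 → ℂ) (k : Fin 3) (q : Mo) : vN e k (TT k q) = -vN e k q := by
  unfold vN
  rw [xN_TT, XN_TT, YN_TT]
  have h : (TT k q).1 = q.1 := rfl
  rw [h]
  ring

theorem TT_mem {k : Fin 3} {P : Set (Pa (Fin 3))} {q : Mo} (h : q ∈ OmN k P) :
    TT k q ∈ OmN k P := by
  obtain ⟨h1, h2, h3, h4⟩ := h
  refine ⟨h1, ?_, ?_, ?_⟩
  · rw [XN_TT]; exact h3
  · rw [YN_TT]; exact h2
  · rw [XN_TT, YN_TT]; exact h4.symm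

theorem isOpen_OmN {k : Fin 3} {P : Set (Pa (Fin 3))} (hP : IsOpen P) : IsOpen (OmN k P) := by
  have h : OmN k P = (Prod.fst ⁻¹' P ∩ {q | ‖XN q‖ < 3 / 2}) ∩
      ({q | ‖YN k q‖ < 3 / 2} ∩ {q | XN q ≠ YN k q}) := by
    ext q
    simp only [OmN, mem_ofPred_eq, mem_inter_iff, mem_preimage]
    tauto
  rw [h]
  have c1 := contDiff_XN.continuous
  have c2 := (contDiff_YN k).continuous
  exact ((hP.preimage continuous_fst).inter (isOpen_lt c1.norm continuous_const)).inter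
    ((isOpen_lt c2.norm continuous_const).inter (isOpen_ne_fun c1 c2))

/-! ### the two kinds of segments -/

/-- equality of the coordinates: equal sizes and equal phases -/
theorem ne_of_size {k : Fin 3} {q : Mo} (h : q.2.1 ≠ q.1.1 k / 2) : XN q ≠ YN k q := by
  intro h1
  have h2 : ‖XN q‖ = ‖YN k q‖ := by rw [h1]
  rw [norm_XN, norm_YN] at h2
  have h3 := Real.exp_injective h2
  exact h (by linarith)

/-- the phases are different -/
def Ph (k : Fin 3) (p : Pa (Fin 3)) (t : ℝ) : Prop :=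
  cexp (I * (t : ℂ)) ≠ cexp (I * ((p.2 k - t : ℝ) : ℂ))

theorem ne_of_phase {k : Fin 3} {q : Mo} (h : Ph k q.1 q.2.2) : XN q ≠ YN k q := by
  intro h1
  by_cases h0 : q.2.1 = q.1.1 k / 2
  · rw [XN_eq, YN_eq] at h1
    rw [Complex.exp_add, Complex.exp_add] at h1
    have h2 : ((q.1.1 k - q.2.1 : ℝ) : ℂ) = (q.2.1 : ℂ) := by
      congr 1
      linarith
    rw [h2] at h1
    exact h (mul_left_cancel₀ (Complex.exp_ne_zero _) h1)
  · exact ne_of_size h0 h1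

theorem phase_of_ne {k : Fin 3} {q : Mo} (h : XN q ≠ YN k q) (h0 : q.2.1 = q.1.1 k / 2) :
    Ph k q.1 q.2.2 := by
  intro h1
  apply h
  rw [XN_eq, YN_eq, Complex.exp_add, Complex.exp_add, h1]
  have h2 : ((q.1.1 k - q.2.1 : ℝ) : ℂ) = (q.2.1 : ℂ) := by
    congr 1
    linarith
  rw [h2]

theorem phase_refl {k : Fin 3} {p : Pa (Fin 3)} {t : ℝ} (h : Ph k p t) : Ph k p (p.2 k - t) := by
  unfold Ph at h ⊢
  rw [sub_sub_cancel]
  exact h.symm

theorem phase_mid (k : Fin 3) (p : Pa (Fin 3)) : Ph k p (p.2 k / 2 + Real.pi / 2) := by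
  unfold Ph
  intro h
  have e1 : I * ((p.2 k / 2 + Real.pi / 2 : ℝ) : ℂ) =
      I * ((p.2 k - (p.2 k / 2 + Real.pi / 2) : ℝ) : ℂ) + Real.pi * I := by
    push_cast
    ring
  rw [e1, Complex.exp_add, Complex.exp_pi_mul_I] at h
  have h2 := Complex.exp_ne_zero (I * ((p.2 k - (p.2 k / 2 + Real.pi / 2) : ℝ) : ℂ))
  have h3 : cexp (I * ((p.2 k - (p.2 k / 2 + Real.pi / 2) : ℝ) : ℂ)) = 0 := by
    linear_combination (-1 / 2 : ℂ) * h
  exact h2 h3

/-- the size is in the neck -/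
def InS (k : Fin 3) (p : Pa (Fin 3)) (s : ℝ) : Prop :=
  Real.exp (-s) < 3 / 2 ∧ Real.exp (-(p.1 k - s)) < 3 / 2

theorem InS.convex {k : Fin 3} {p : Pa (Fin 3)} {s s' : ℝ} (h : InS k p s) (h' : InS k p s')
    {t : ℝ} (ht : t ∈ Icc (0 : ℝ) 1) : InS k p (s + t * (s' - s)) := by
  have hlog : ∀ u : ℝ, Real.exp u < 3 / 2 ↔ u < Real.log (3 / 2) := fun u =>
    (Real.lt_log_iff_exp_lt (by norm_num)).symm
  unfold InS at h h' ⊢
  rw [hlog, hlog] at h h' ⊢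
  obtain ⟨t0, t1⟩ := ht
  constructor
  · nlinarith [h.1, h'.1, mul_nonneg t0 (sub_nonneg.2 h'.1.le),
      mul_nonneg (sub_nonneg.2 t1) (sub_nonneg.2 h.1.le)]
  · nlinarith [h.2, h'.2, mul_nonneg t0 (sub_nonneg.2 h'.2.le),
      mul_nonneg (sub_nonneg.2 t1) (sub_nonneg.2 h.2.le)]

theorem InS.refl' {k : Fin 3} {p : Pa (Fin 3)} {s : ℝ} (h : InS k p s) : InS k p (p.1 k - s) := by
  unfold InS at h ⊢
  rw [sub_sub_cancel]
  exact ⟨h.2, h.1⟩

theorem mem_OmN_iff {k : Fin 3} {P : Set (Pa (Fin 3))} {q : Mo} :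
    q ∈ OmN k P ↔ q.1 ∈ P ∧ InS k q.1 q.2.1 ∧ XN q ≠ YN k q := by
  unfold OmN InS
  rw [mem_ofPred_eq, norm_XN, norm_YN]
  tauto

/-! ### the fibre is connected -/

section conn

variable {om : Mo → (Mo →L[ℝ] ℝ)} {k : Fin 3} {P : Set (Pa (Fin 3))}

theorem segA (hP : IsOpen P) (hd : ∀ q ∈ OmN k P, DifferentiableAt ℝ om q)
    (hs : ∀ q ∈ OmN k P, ∀ u v, fderiv ℝ om q u v = fderiv ℝ om q v u)
    (hv : ∀ q ∈ OmN k P, ∀ c : ℝ × ℝ, om q (0, c) = 0) {p : Pa (Fin 3)} (hp : p ∈ P) {s t t' : ℝ}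
    (h1 : InS k p s) (h2 : s ≠ p.1 k / 2) : om (p, (s, t)) = om (p, (s, t')) := by
  refine const_seg (isOpen_OmN hP) hd hs hv fun r _ => ?_
  have e : ((s, t) : ℝ × ℝ) + r • ((s, t') - (s, t)) = (s, t + r * (t' - t)) := by
    ext
    · simp
    · simp
  rw [e, mem_OmN_iff]
  exact ⟨hp, h1, ne_of_size h2⟩

theorem segB (hP : IsOpen P) (hd : ∀ q ∈ OmN k P, DifferentiableAt ℝ om q)
    (hs : ∀ q ∈ OmN k P, ∀ u v, fderiv ℝ om q u v = fderiv ℝ om q v u)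
    (hv : ∀ q ∈ OmN k P, ∀ c : ℝ × ℝ, om q (0, c) = 0) {p : Pa (Fin 3)} (hp : p ∈ P) {s s' t : ℝ}
    (h1 : InS k p s) (h1' : InS k p s') (h2 : Ph k p t) : om (p, (s, t)) = om (p, (s', t)) := by
  refine const_seg (isOpen_OmN hP) hd hs hv fun r hr => ?_
  have e : ((s, t) : ℝ × ℝ) + r • ((s', t) - (s, t)) = (s + r * (s' - s), t) := by
    ext
    · simp
    · simp
  rw [e, mem_OmN_iff]
  exact ⟨hp, h1.convex h1' hr, ne_of_phase h2⟩

/-- the values at a point and at its mirror image agree -/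
theorem conn (hP : IsOpen P) (hd : ∀ q ∈ OmN k P, DifferentiableAt ℝ om q)
    (hs : ∀ q ∈ OmN k P, ∀ u v, fderiv ℝ om q u v = fderiv ℝ om q v u)
    (hv : ∀ q ∈ OmN k P, ∀ c : ℝ × ℝ, om q (0, c) = 0) {q : Mo} (hq : q ∈ OmN k P)
    (hy : 2 < q.1.1 k) : om q = om (TT k q) := by
  obtain ⟨p, s, t⟩ := q
  rw [TT_apply]
  rw [mem_OmN_iff] at hq
  obtain ⟨hp, hS, hne⟩ := hq
  simp only at hp hS hy ⊢
  have A := fun {s t t' : ℝ} => segA (om := om) (s := s) (t := t) (t' := t') hP hd hs hv hp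
  have B := fun {s s' t : ℝ} => segB (om := om) (s := s) (s' := s') (t := t) hP hd hs hv hp
  set m := p.2 k / 2 + Real.pi / 2 with hm
  have hpm : Ph k p m := phase_mid k p
  by_cases h0 : s = p.1 k / 2
  · have hpt : Ph k p t := phase_of_ne hne h0
    set s1 := p.1 k / 2 + 1 with hs1
    have i1 : InS k p s1 := by
      constructor
      · have : Real.exp (-s1) < 1 := by rw [← Real.exp_zero]; exact Real.exp_lt_exp.2 (by linarith)
        linarith
      · have : Real.exp (-(p.1 k - s1)) < 1 := by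
          rw [← Real.exp_zero]; exact Real.exp_lt_exp.2 (by linarith)
        linarith
    have n1 : s1 ≠ p.1 k / 2 := by
      rw [hs1]
      linarith
    have n2 : p.1 k - s1 ≠ p.1 k / 2 := by
      rw [hs1]
      intro h
      linarith
    rw [B hS i1 hpt, A (t' := m) i1 n1, B i1 i1.refl' hpm, A (t' := p.2 k - t) i1.refl' n2,
      B i1.refl' hS.refl' (phase_refl hpt)]
  · have n2 : p.1 k - s ≠ p.1 k / 2 := by
      intro h
      exact h0 (by linarith)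
    rw [A (t' := m) hS h0, B hS hS.refl' hpm, A (t' := p.2 k - t) hS.refl' n2]

end conn

end

end Vale.Agent.P273.H339
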