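import Vale.Agent.P273.H339.UNeck

/-!
# P273, row (U), necks: chart conditions, vertical parts, the theorem
-/

namespace Vale.Agent.P273.H339

open scoped ContDiff Topology
open Set Filter Complex
open Vale.Agent.P273.H214 (Bs ff FlatOn IsBr)
open Vale.Agent.P273.H722 (Pa ep norm_ep_apply hasFDerivAt_ep dep fderiv_facts)
open Vale.Agent.P273.H517 (Sep Sm ps hn Rn far_of' lt_sq_of differentiableAt_ps hn_dc)
open Vale.Agent.P273.H598 (rz c0 q0 P0 rz_sq rz_ne_zero split hasDerivAt_P0 differentiableAt_rz)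
open Vale.Agent.P273.H803 (ex norm_ex hasFDerivAt_ex)

noncomputable section

variable {e : Fin 3 → ℂ} {k : Fin 3} {P : Set (Pa (Fin 3))} {q : Mo}

theorem norm_mid (hX : ‖XN q‖ < 3 / 2) (hY : ‖YN k q‖ < 3 / 2) :
    ‖(XN q + YN k q) / 2‖ < 3 / 2 := by
  rw [norm_div]
  have h2 : ‖(2 : ℂ)‖ = 2 := by simp
  rw [h2]
  have := norm_add_le (XN q) (YN k q)
  linarith

theorem lt_far (he : Sep e) (hs : Sm (ep q.1)) (hX : ‖XN q‖ < 3 / 2) (hY : ‖YN k q‖ < 3 / 2)
    {l : Fin 3} (hl : l ≠ k) : ‖ep q.1 l‖ < ‖xN e k q - e l‖ ^ 2 := by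
  refine lt_sq_of (hs l) ?_
  have h1 := far_of' he (k := k) (l := l) hl.symm (z := (XN q + YN k q) / 2)
    ((norm_mid hX hY).trans (by norm_num))
  exact h1

/-- the product of the other two factors -/
def gN (e : Fin 3 → ℂ) (k : Fin 3) (q : Mo) : ℂ :=
  ∏ l ∈ Finset.univ.erase k, rz (ep q.1 l) (xN e k q - e l)

theorem vN_eq (e : Fin 3 → ℂ) (k : Fin 3) (q : Mo) :
    vN e k q = gN e k q * ((XN q - YN k q) / 2) := rfl

theorem gN_ne_zero (he : Sep e) (hs : Sm (ep q.1)) (hX : ‖XN q‖ < 3 / 2)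
    (hY : ‖YN k q‖ < 3 / 2) : gN e k q ≠ 0 :=
  Finset.prod_ne_zero_iff.2 fun _ hl => rz_ne_zero (lt_far he hs hX hY (Finset.ne_of_mem_erase hl))

theorem hn_mid (e : Fin 3 → ℂ) (k : Fin 3) (q : Mo) (m : ℕ) :
    hn e (ep q.1) m k ((XN q + YN k q) / 2) = xN e k q ^ m * (gN e k q)⁻¹ := by
  unfold hn gN
  have h1 : e k + (XN q + YN k q) / 2 = xN e k q := rfl
  rw [h1, ← Finset.prod_inv_distrib]
  rfl

theorem vN_sq (he : Sep e) (hs : Sm (ep q.1)) (hX : ‖XN q‖ < 3 / 2) (hY : ‖YN k q‖ < 3 / 2) :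
    vN e k q ^ 2 = ∏ l, ((xN e k q - e l) ^ 2 - ep q.1 l) := by
  rw [← Finset.mul_prod_erase Finset.univ _ (Finset.mem_univ k), vN_eq, mul_pow]
  have h1 : gN e k q ^ 2 = ∏ l ∈ Finset.univ.erase k, ((xN e k q - e l) ^ 2 - ep q.1 l) := by
    unfold gN
    rw [← Finset.prod_pow]
    refine Finset.prod_congr rfl fun l hl => rz_sq ?_
    intro h0
    have := lt_far he hs hX hY (Finset.ne_of_mem_erase hl)
    rw [h0, norm_zero] at this
    norm_num at this
    exact absurd this (not_lt.2 (norm_nonneg _))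
  have h2 : ((XN q - YN k q) / 2) ^ 2 = (xN e k q - e k) ^ 2 - ep q.1 k := by
    rw [← XN_mul_YN k q]
    unfold xN
    ring
  rw [h1, h2]
  ring

theorem vN_ne_zero (he : Sep e) (hs : Sm (ep q.1)) (hX : ‖XN q‖ < 3 / 2) (hY : ‖YN k q‖ < 3 / 2)
    (hne : XN q ≠ YN k q) : vN e k q ≠ 0 := by
  rw [vN_eq]
  refine mul_ne_zero (gN_ne_zero he hs hX hY) ?_
  exact div_ne_zero (sub_ne_zero.2 hne) two_ne_zero

theorem continuousAt_ep (p : Pa (Fin 3)) : ContinuousAt (ep : Pa (Fin 3) → Fin 3 → ℂ) p :=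
  (hasFDerivAt_ep p).continuousAt

theorem continuousAt_vN (he : Sep e) (hs : Sm (ep q.1)) (hX : ‖XN q‖ < 3 / 2)
    (hY : ‖YN k q‖ < 3 / 2) : ContinuousAt (vN e k) q := by
  have c1 := contDiff_XN.continuous.continuousAt (x := q)
  have c2 := (contDiff_YN k).continuous.continuousAt (x := q)
  have c3 := (contDiff_xN e k).continuous.continuousAt (x := q)
  have c4 : ContinuousAt (fun q : Mo => ep q.1) q :=
    ContinuousAt.comp (f := Prod.fst) (continuousAt_ep q.1) continuousAt_fst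
  unfold vN
  refine ContinuousAt.mul ?_ ((c1.sub c2).div_const _)
  refine tendsto_finsetProd _ fun l hl => ?_
  have h1 : ContinuousAt (fun p : ℂ × ℂ => rz p.1 p.2) (ep q.1 l, xN e k q - e l) :=
    (differentiableAt_rz (lt_far he hs hX hY (Finset.ne_of_mem_erase hl))).continuousAt
  have h2 : ContinuousAt (fun q : Mo => ep q.1 l) q := (continuousAt_pi.1 c4) l
  have h3 : ContinuousAt (fun q : Mo => (ep q.1 l, xN e k q - e l)) q :=
    h2.prodMk (c3.sub continuousAt_const)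
  exact (ContinuousAt.comp (f := fun q : Mo => (ep q.1 l, xN e k q - e l))
    (g := fun p : ℂ × ℂ => rz p.1 p.2) h1 h3).tendsto

/-- **the data** at a totally degenerate point: `bt` = roots, `a0, a1` = coefficients of the flat
form of the class, `w` = slope, `ξ` = value at the root, `β` = jump -/
structure NData (O : Set Bs) (η : Bs → ℂ → ℂ → (Bs × ℂ →L[ℝ] ℝ)) (A : Bs → (ℂ × ℂ →L[ℝ] ℝ))
    (e : Fin 3 → ℂ) (k : Fin 3) (P : Set (Pa (Fin 3))) (bt : Pa (Fin 3) → Bs)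
    (a0 a1 : Pa (Fin 3) → ℂ) (w : Pa (Fin 3) → ℝ) (β : ℝ) : Prop where
  flat : FlatOn O η A
  sep : Sep e
  op : IsOpen P
  mem : ∀ p ∈ P, bt p ∈ O
  sm : ∀ p ∈ P, Sm (ep p)
  smooth : ∀ p ∈ P, ContDiffAt ℝ ∞ bt p
  hff : ∀ p ∈ P, ∀ x, ff (bt p, x) = ∏ l, ((x - e l) ^ 2 - ep p l)
  hA : ∀ p ∈ P, ∀ u v, A (bt p) (u, v) = (a0 p * u + a1 p * v).re
  hc : ∀ p ∈ P, ((2 * w p / p.1 k : ℝ) : ℂ) + I * ((β / Real.pi : ℝ) : ℂ) =
    a0 p * c0 (hn e (ep p) 0 k) (3 / 2) (ep p k) + a1 p * c0 (hn e (ep p) 1 k) (3 / 2) (ep p k)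

/-- the regular part -/
def RM (e : Fin 3 → ℂ) (k : Fin 3) (a0 a1 : Pa (Fin 3) → ℂ) (p : Pa (Fin 3)) (X : ℂ) : ℂ :=
  a0 p * Rn e (ep p) 0 k X + a1 p * Rn e (ep p) 1 k X

/-- the potential in the neck -/
def UM (e : Fin 3 → ℂ) (k : Fin 3) (a0 a1 : Pa (Fin 3) → ℂ) (w : Pa (Fin 3) → ℝ) (ξ β : ℝ)
    (q : Mo) : ℝ :=
  ξ + w q.1 * (1 - 2 * q.2.1 / q.1.1 k) - β / Real.pi * (q.2.2 - q.1.2 k / 2) +
    ((RM e k a0 a1 q.1 (XN q)).re - (RM e k a0 a1 q.1 (YN k q)).re)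

variable {O : Set Bs} {η : Bs → ℂ → ℂ → (Bs × ℂ →L[ℝ] ℝ)} {A : Bs → (ℂ × ℂ →L[ℝ] ℝ)}
  {bt : Pa (Fin 3) → Bs} {a0 a1 : Pa (Fin 3) → ℂ} {w : Pa (Fin 3) → ℝ} {ξ β : ℝ}

theorem NData.chAt (D : NData O η A e k P bt a0 a1 w β) (hq : q ∈ OmN k P) :
    ChAt O (psN bt e k) (vN e k) q := by
  have hO := isOpen_OmN (k := k) D.op
  obtain ⟨h1, h2, h3, h4⟩ := hq
  refine ⟨D.mem _ h1, ?_, continuousAt_vN D.sep (D.sm _ h1) h2 h3, ?_, ?_⟩
  · have s1 : ContDiffAt ℝ ∞ (fun q : Mo => bt q.1) q :=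
      ContDiffAt.comp (g := bt) (f := Prod.fst) q (D.smooth _ h1) contDiffAt_fst
    exact s1.prodMk (contDiff_xN e k).contDiffAt
  · filter_upwards [hO.mem_nhds ⟨h1, h2, h3, h4⟩] with r hr
    obtain ⟨g1, g2, g3, g4⟩ := hr
    rw [vN_sq D.sep (D.sm _ g1) g2 g3]
    exact (D.hff _ g1 _).symm
  · have h5 : ff (psN bt e k q) = vN e k q ^ 2 := by
      rw [vN_sq D.sep (D.sm _ h1) h2 h3]
      exact D.hff _ h1 _
    rw [h5]
    exact pow_ne_zero 2 (vN_ne_zero D.sep (D.sm _ h1) h2 h3 h4)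

theorem NData.two_lt (D : NData O η A e k P bt a0 a1 w β) {p : Pa (Fin 3)} (hp : p ∈ P) :
    2 < p.1 k := by
  have h1 := D.sm p hp k
  rw [norm_ep_apply] at h1
  by_contra h
  push Not at h
  have h2 : Real.exp (-2) ≤ Real.exp (-(p.1 k)) := Real.exp_le_exp.2 (by linarith)
  have h3 : Real.exp 2 < 8 := by
    have h4 : Real.exp 2 = Real.exp 1 ^ 2 := by
      rw [← Real.exp_nat_mul]
      norm_num
    rw [h4]
    have h5 := Real.exp_one_lt_d9
    have h6 := Real.exp_pos 1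
    nlinarith
  have h7 : Real.exp (-2) * Real.exp 2 = 1 := by
    rw [← Real.exp_add]
    norm_num
  have h8 := Real.exp_pos (-2)
  nlinarith

/-! ### vertical derivatives -/

/-- the vertical line through a point -/
def vl (q : Mo) (s t : ℝ) (r : ℝ) : Mo := (q.1, (q.2.1 + r * s, q.2.2 + r * t))

theorem vl_zero (q : Mo) (s t : ℝ) : vl q s t 0 = q := by
  unfold vl
  simp

theorem hasDerivAt_vl (q : Mo) (s t r : ℝ) :
    HasDerivAt (vl q s t) ((0 : Pa (Fin 3)), (s, t)) r := by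
  unfold vl
  refine (hasDerivAt_const r q.1).prodMk (HasDerivAt.prodMk ?_ ?_)
  · have := ((hasDerivAt_id r).mul_const s).const_add q.2.1
    simpa using this
  · have := ((hasDerivAt_id r).mul_const t).const_add q.2.2
    simpa using this

theorem hasDerivAt_XN (q : Mo) (s t : ℝ) :
    HasDerivAt (fun r => XN (vl q s t r)) (XN q * (-(s : ℂ) + I * (t : ℂ))) 0 := by
  have h1 : HasDerivAt (fun r : ℝ => -((q.2.1 + r * s : ℝ) : ℂ) + I * ((q.2.2 + r * t : ℝ) : ℂ))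
      (-(s : ℂ) + I * (t : ℂ)) 0 := by
    have a1 : HasDerivAt (fun r : ℝ => ((q.2.1 + r * s : ℝ) : ℂ)) ((s : ℝ) : ℂ) 0 := by
      have := ((hasDerivAt_id (0 : ℝ)).mul_const s).const_add q.2.1
      exact HasDerivAt.ofReal_comp (by simpa using this)
    have a2 : HasDerivAt (fun r : ℝ => ((q.2.2 + r * t : ℝ) : ℂ)) ((t : ℝ) : ℂ) 0 := by
      have := ((hasDerivAt_id (0 : ℝ)).mul_const t).const_add q.2.2
      exact HasDerivAt.ofReal_comp (by simpa using this)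
    exact a1.neg.add (a2.const_mul I)
  have h2 := h1.cexp
  have e1 : (fun r => XN (vl q s t r)) = fun r : ℝ =>
      cexp (-((q.2.1 + r * s : ℝ) : ℂ) + I * ((q.2.2 + r * t : ℝ) : ℂ)) := rfl
  rw [e1]
  refine h2.congr_deriv ?_
  rw [XN_eq]
  simp

theorem hasDerivAt_YN (k : Fin 3) (q : Mo) (s t : ℝ) :
    HasDerivAt (fun r => YN k (vl q s t r)) (YN k q * -(-(s : ℂ) + I * (t : ℂ))) 0 := by
  have h1 := hasDerivAt_XN (TT k q) (-s) (-t)
  have e1 : (fun r => XN (vl (TT k q) (-s) (-t) r)) = fun r => YN k (vl q s t r) := by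
    funext r
    rw [YN_comp]
    have : vl (TT k q) (-s) (-t) r = TT k (vl q s t r) := by
      unfold vl
      rw [TT_apply, TT_apply]
      ext <;> simp <;> ring
    rw [this]
  rw [e1] at h1
  refine h1.congr_deriv ?_
  rw [XN_TT]
  push_cast
  ring

/-- the vertical derivative of the point -/
theorem hasDerivAt_xN (e : Fin 3 → ℂ) (k : Fin 3) (q : Mo) (s t : ℝ) :
    HasDerivAt (fun r => xN e k (vl q s t r))
      ((XN q - YN k q) / 2 * (-(s : ℂ) + I * (t : ℂ))) 0 := by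
  have h1 := (((hasDerivAt_XN q s t).add (hasDerivAt_YN k q s t)).div_const 2).const_add (e k)
  refine h1.congr_deriv ?_
  ring

theorem fderiv_vl {F : Type*} [NormedAddCommGroup F] [NormedSpace ℝ F] {f : Mo → F} {f' : F}
    {s t : ℝ} (hf : DifferentiableAt ℝ f q) (h : HasDerivAt (fun r => f (vl q s t r)) f' 0) :
    fderiv ℝ f q ((0 : Pa (Fin 3)), (s, t)) = f' := by
  have h1 : HasFDerivAt f (fderiv ℝ f q) (vl q s t 0) := by
    rw [vl_zero]
    exact hf.hasFDerivAt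
  have h2 := h1.comp_hasDerivAt (0 : ℝ) (hasDerivAt_vl q s t 0)
  exact h2.unique h

theorem fderiv_psN (D : NData O η A e k P bt a0 a1 w β) (hq : q ∈ OmN k P) (s t : ℝ) :
    fderiv ℝ (psN bt e k) q ((0 : Pa (Fin 3)), (s, t)) =
      (0, (XN q - YN k q) / 2 * (-(s : ℂ) + I * (t : ℂ))) := by
  refine fderiv_vl ((D.chAt hq).smooth.differentiableAt (by simp)) ?_
  exact (hasDerivAt_const (0 : ℝ) (bt q.1)).prodMk (hasDerivAt_xN e k q s t)

/-- the vertical part of the form -/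
theorem pbe_vert (D : NData O η A e k P bt a0 a1 w β) (hq : q ∈ OmN k P) (s t : ℝ) :
    pbe η (psN bt e k) (vN e k) q ((0 : Pa (Fin 3)), (s, t)) =
      ((a0 q.1 * hn e (ep q.1) 0 k ((XN q + YN k q) / 2) +
        a1 q.1 * hn e (ep q.1) 1 k ((XN q + YN k q) / 2)) * (-(s : ℂ) + I * (t : ℂ))).re := by
  rw [pbe_apply, fderiv_psN D hq]
  obtain ⟨h1, h2, h3, h4⟩ := hq
  have hg := gN_ne_zero D.sep (D.sm _ h1) h2 h3
  have hd : XN q - YN k q ≠ 0 := sub_ne_zero.2 h4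
  have e1 : (psN bt e k q).1 = bt q.1 := rfl
  have e2 : (psN bt e k q).2 = xN e k q := rfl
  rw [e1, e2, D.flat.vert _ (D.mem _ h1) _ _ ?_ (vN_ne_zero D.sep (D.sm _ h1) h2 h3 h4), D.hA _ h1,
    hn_mid, hn_mid, vN_eq]
  · congr 1
    field_simp
  · rw [vN_sq D.sep (D.sm _ h1) h2 h3]
    exact (D.hff _ h1 _).symm

/-- the vertical derivative of the regular part along `X` -/
theorem hasDerivAt_RM (he : Sep e) (hs : Sm (ep q.1)) {Z : ℝ → ℂ} {l : ℂ}
    (hZ : HasDerivAt Z (Z 0 * l) 0) (hb : ‖Z 0‖ < 3 / 2) :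
    HasDerivAt (fun r => RM e k a0 a1 q.1 (Z r))
      ((a0 q.1 * (Z 0 * q0 (hn e (ep q.1) 0 k) (3 / 2) (Z 0) (ep q.1 k)) +
        a1 q.1 * (Z 0 * q0 (hn e (ep q.1) 1 k) (3 / 2) (Z 0) (ep q.1 k))) * l) 0 := by
  have hε : ‖ep q.1 k‖ < (3 / 2 : ℝ) ^ 2 := by
    refine (hs k).trans ?_
    norm_num
  have h1 : ∀ m, HasDerivAt (fun r => Rn e (ep q.1) m k (Z r))
      (Z 0 * q0 (hn e (ep q.1) m k) (3 / 2) (Z 0) (ep q.1 k) * l) 0 := by
    intro m
    have hc : ContinuousOn (hn e (ep q.1) m k) (Metric.sphere 0 (3 / 2)) := by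
      have h2 := (hn_dc he hs m k).continuousOn
      rw [closure_ball _ (by norm_num)] at h2
      exact h2.mono Metric.sphere_subset_closedBall
    have h3 := hasDerivAt_P0 hc hb hε
    have h4 := h3.scomp (0 : ℝ) hZ
    have e1 : (fun r => Rn e (ep q.1) m k (Z r)) =
        (fun X => P0 (hn e (ep q.1) m k) (3 / 2) X (ep q.1 k)) ∘ Z := rfl
    rw [e1]
    refine h4.congr_deriv ?_
    rw [smul_eq_mul]
    ring
  have h5 := ((h1 0).const_mul (a0 q.1)).add ((h1 1).const_mul (a1 q.1))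
  refine h5.congr_deriv ?_
  ring

/-- the vertical part of the differential of the potential -/
theorem UM_vert (D : NData O η A e k P bt a0 a1 w β) (hq : q ∈ OmN k P)
    (hU : DifferentiableAt ℝ (UM e k a0 a1 w ξ β) q) (s t : ℝ) :
    fderiv ℝ (UM e k a0 a1 w ξ β) q ((0 : Pa (Fin 3)), (s, t)) =
      ((a0 q.1 * hn e (ep q.1) 0 k ((XN q + YN k q) / 2) +
        a1 q.1 * hn e (ep q.1) 1 k ((XN q + YN k q) / 2)) * (-(s : ℂ) + I * (t : ℂ))).re := by
  have hy2 := D.two_lt hq.1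
  obtain ⟨h1, h2, h3, h4⟩ := hq
  have hy0 : q.1.1 k ≠ 0 := by
    intro h
    linarith
  have hs := D.sm _ h1
  have g1 : HasDerivAt (fun r => RM e k a0 a1 q.1 (XN (vl q s t r))) _ 0 :=
    hasDerivAt_RM (k := k) (a0 := a0) (a1 := a1) D.sep hs (Z := fun r => XN (vl q s t r))
      (l := -(s : ℂ) + I * (t : ℂ)) (by
        have := hasDerivAt_XN q s t
        simp only [vl_zero]
        exact this) (by simp only [vl_zero]; exact h2)
  have g2 : HasDerivAt (fun r => RM e k a0 a1 q.1 (YN k (vl q s t r))) _ 0 :=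
    hasDerivAt_RM (k := k) (a0 := a0) (a1 := a1) D.sep hs (Z := fun r => YN k (vl q s t r))
      (l := -(-(s : ℂ) + I * (t : ℂ))) (by
        have := hasDerivAt_YN k q s t
        simp only [vl_zero]
        exact this) (by simp only [vl_zero]; exact h3)
  simp only [vl_zero] at g1 g2
  have g1' := (Complex.reCLM.hasFDerivAt.comp_hasDerivAt (0 : ℝ) g1)
  have g2' := (Complex.reCLM.hasFDerivAt.comp_hasDerivAt (0 : ℝ) g2)
  have g3 : HasDerivAt (fun r : ℝ => ξ + w q.1 * (1 - 2 * (q.2.1 + r * s) / q.1.1 k) -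
      β / Real.pi * ((q.2.2 + r * t) - q.1.2 k / 2))
      (-(2 * w q.1 / q.1.1 k) * s - β / Real.pi * t) 0 := by
    have a1 : HasDerivAt (fun r : ℝ => q.2.1 + r * s) s 0 := by
      have := ((hasDerivAt_id (0 : ℝ)).mul_const s).const_add q.2.1
      simpa using this
    have a2 : HasDerivAt (fun r : ℝ => q.2.2 + r * t) t 0 := by
      have := ((hasDerivAt_id (0 : ℝ)).mul_const t).const_add q.2.2
      simpa using this
    have a3 := (((((a1.const_mul 2).div_const (q.1.1 k)).const_sub 1).const_mul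
      (w q.1)).const_add ξ).sub ((a2.sub_const (q.1.2 k / 2)).const_mul (β / Real.pi))
    refine a3.congr_deriv ?_
    field_simp
  have g4 := g3.add (g1'.sub g2')
  have e1 : (fun r => UM e k a0 a1 w ξ β (vl q s t r)) = fun r : ℝ =>
      (ξ + w q.1 * (1 - 2 * (q.2.1 + r * s) / q.1.1 k) -
      β / Real.pi * ((q.2.2 + r * t) - q.1.2 k / 2)) +
      (((fun z => Complex.reCLM z) ∘ fun r => RM e k a0 a1 q.1 (XN (vl q s t r))) r -
        ((fun z => Complex.reCLM z) ∘ fun r => RM e k a0 a1 q.1 (YN k (vl q s t r))) r) := rfl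
  refine (fderiv_vl (s := s) (t := t) hU (f' := (-(2 * w q.1 / q.1.1 k) * s - β / Real.pi * t) +
    (((a0 q.1 * (XN q * q0 (hn e (ep q.1) 0 k) (3 / 2) (XN q) (ep q.1 k)) +
        a1 q.1 * (XN q * q0 (hn e (ep q.1) 1 k) (3 / 2) (XN q) (ep q.1 k))) *
          (-(s : ℂ) + I * (t : ℂ))).re -
     ((a0 q.1 * (YN k q * q0 (hn e (ep q.1) 0 k) (3 / 2) (YN k q) (ep q.1 k)) +
        a1 q.1 * (YN k q * q0 (hn e (ep q.1) 1 k) (3 / 2) (YN k q) (ep q.1 k))) *
          -(-(s : ℂ) + I * (t : ℂ))).re)) ?_).trans ?_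
  · rw [e1]
    exact g4
  · have hXY : XN q * YN k q = ep q.1 k := XN_mul_YN k q
    have s0 := split (hn_dc D.sep hs 0 k) h2 h3 hXY
    have s1 := split (hn_dc D.sep hs 1 k) h2 h3 hXY
    rw [smul_eq_mul, smul_eq_mul] at s0 s1
    have hc := D.hc _ h1
    have e2 : (-(2 * w q.1 / q.1.1 k) * s - β / Real.pi * t) =
        ((((2 * w q.1 / q.1.1 k : ℝ) : ℂ) + I * ((β / Real.pi : ℝ) : ℂ)) *
          (-(s : ℂ) + I * (t : ℂ))).re := by
      simp only [Complex.mul_re, Complex.add_re, Complex.neg_re, Complex.ofReal_re, Complex.I_re,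
        Complex.I_im, Complex.ofReal_im, Complex.add_im, Complex.mul_im, Complex.neg_im]
      ring
    rw [e2, hc, s0, s1, ← Complex.sub_re, ← Complex.add_re]
    congr 1
    ring

/-- **(U) on the necks.** -/
theorem neck_eq (D : NData O η A e k P bt a0 a1 w β)
    (hU : ∀ q ∈ OmN k P, ContDiffAt ℝ 2 (UM e k a0 a1 w ξ β) q) (hq : q ∈ OmN k P) :
    pbe η (psN bt e k) (vN e k) q = fderiv ℝ (UM e k a0 a1 w ξ β) q := by
  set om : Mo → (Mo →L[ℝ] ℝ) := fun q => pbe η (psN bt e k) (vN e k) q -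
    fderiv ℝ (UM e k a0 a1 w ξ β) q with hom
  have hd : ∀ q ∈ OmN k P, DifferentiableAt ℝ om q := fun q hq =>
    ((D.chAt hq).differentiableAt D.flat).sub (fderiv_facts (hU q hq)).1
  have hs : ∀ q ∈ OmN k P, ∀ u v, fderiv ℝ om q u v = fderiv ℝ om q v u := by
    intro q hq u v
    have h2 : fderiv ℝ om q = fderiv ℝ (pbe η (psN bt e k) (vN e k)) q -
        fderiv ℝ (fderiv ℝ (UM e k a0 a1 w ξ β)) q :=
      fderiv_sub ((D.chAt hq).differentiableAt D.flat) (fderiv_facts (hU q hq)).1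
    rw [h2]
    show fderiv ℝ (pbe η (psN bt e k) (vN e k)) q u v -
        fderiv ℝ (fderiv ℝ (UM e k a0 a1 w ξ β)) q u v =
      fderiv ℝ (pbe η (psN bt e k) (vN e k)) q v u -
        fderiv ℝ (fderiv ℝ (UM e k a0 a1 w ξ β)) q v u
    rw [(D.chAt hq).symm D.flat, (fderiv_facts (hU q hq)).2]
  have hv : ∀ q ∈ OmN k P, ∀ c : ℝ × ℝ, om q (0, c) = 0 := by
    intro q hq c
    show pbe η (psN bt e k) (vN e k) q (0, c) - fderiv ℝ (UM e k a0 a1 w ξ β) q (0, c) = 0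
    have h3 := pbe_vert D hq c.1 c.2
    have h4 := UM_vert D hq ((hU q hq).differentiableAt (by norm_num)) c.1 c.2
    rw [Prod.mk.eta] at h3 h4
    rw [h3, h4, sub_self]
  have hc : om q = om (TT k q) := conn D.op hd hs hv hq (D.two_lt hq.1)
  have hT := TT_mem hq
  -- the form changes sign
  have hT1 : (pbe η (psN bt e k) (vN e k) (TT k q)).comp (TT k) =
      -pbe η (psN bt e k) (vN e k) q := by
    have h5 := pbe_comp (η := η) (ψ := psN bt e k) (yy := vN e k) (m := TT k) (r := q)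
      ((D.chAt hT).smooth.differentiableAt (by simp)) (TT k).differentiableAt
    rw [(TT k).fderiv] at h5
    rw [← h5]
    have h6 : (fun r => psN bt e k (TT k r)) = psN bt e k := by
      funext r
      unfold psN
      rw [xN_TT]
      rfl
    unfold pbe
    rw [h6]
    simp only [vN_TT]
    rw [D.flat.odd]
    rfl
  have hT2 : (fderiv ℝ (UM e k a0 a1 w ξ β) (TT k q)).comp (TT k) =
      -fderiv ℝ (UM e k a0 a1 w ξ β) q := by
    have h5 : fderiv ℝ (fun r => UM e k a0 a1 w ξ β (TT k r)) q =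
        (fderiv ℝ (UM e k a0 a1 w ξ β) (TT k q)).comp (TT k) := by
      have := fderiv_fun_comp (g := UM e k a0 a1 w ξ β) (f := TT k) q
        ((hU _ hT).differentiableAt (by norm_num)) (TT k).differentiableAt
      rw [(TT k).fderiv] at this
      exact this
    rw [← h5]
    have h6 : (fun r => UM e k a0 a1 w ξ β (TT k r)) =ᶠ[𝓝 q]
        fun r => 2 * ξ - UM e k a0 a1 w ξ β r := by
      filter_upwards [(isOpen_OmN D.op).mem_nhds hq] with r hr
      have hy : r.1.1 k ≠ 0 := by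
        have := D.two_lt hr.1
        intro h
        linarith
      unfold UM
      rw [XN_TT, YN_TT]
      have e1 : (TT k r).1 = r.1 := rfl
      have e2 : (TT k r).2.1 = r.1.1 k - r.2.1 := rfl
      have e3 : (TT k r).2.2 = r.1.2 k - r.2.2 := rfl
      rw [e1, e2, e3]
      have e4 : 1 - 2 * (r.1.1 k - r.2.1) / r.1.1 k = -(1 - 2 * r.2.1 / r.1.1 k) := by
        field_simp
        ring
      rw [e4]
      ring
    rw [h6.fderiv_eq, fderiv_const_sub]
  have key : om q = 0 := by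
    refine ContinuousLinearMap.ext fun v => ?_
    have h7 : om (TT k q) (TT k v) = -om q v := by
      have h8 := congrArg (fun L : Mo →L[ℝ] ℝ => L v) hT1
      have h9 := congrArg (fun L : Mo →L[ℝ] ℝ => L v) hT2
      simp only [ContinuousLinearMap.comp_apply, neg_apply] at h8 h9
      show pbe η (psN bt e k) (vN e k) (TT k q) (TT k v) -
          fderiv ℝ (UM e k a0 a1 w ξ β) (TT k q) (TT k v) = -(pbe η (psN bt e k) (vN e k) q v -
          fderiv ℝ (UM e k a0 a1 w ξ β) q v)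
      rw [h8, h9]
      ring
    have h10 : om (TT k q) (TT k v) = om (TT k q) v := by
      have h11 : TT k v = v + ((0 : Pa (Fin 3)), (v.1.1 k - 2 * v.2.1, v.1.2 k - 2 * v.2.2)) := by
        rw [TT_apply]
        ext <;> simp <;> ring
      rw [h11, map_add, hv _ hT, add_zero]
    rw [← hc] at h7 h10
    have h12 : om q v = -om q v := h10.symm.trans h7
    have h13 : om q v = 0 := by linarith
    rw [h13]
    rfl
  exact sub_eq_zero.1 key

end

end Vale.Agent.P273.H339
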