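import Vale.Agent.P273.H339.UInst
import Vale.Agent.P273.H630.D0
import Vale.Agent.P273.H732.Conv
import Vale.Agent.P273.H803.AsyL
import Vale.Agent.P273.H214.OneOf

/-!
# P273, row (U), necks: the region charts of 95 / 562 at theta
-/

namespace Vale.Agent.P273.H339

open scoped ContDiff Topology
open Set Filter Complex
open Vale.Agent.P273.H214 (Bs ff FlatOn IsBr FlatFam)
open Vale.Agent.P273.H722 (Pa ep)
open Vale.Agent.P273.H598 (rz)
open Vale.Agent.P273.H630 (D0 I0 ell0 sep_ctr ysh cmIn)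
open Vale.Agent.P273.H562 (Co W rootsL emb posE shE xe bt)
open Vale.Agent.P273.H803 (posj)
open Vale.Agent.P273.H973 (prj E1)
open Vale.Agent.P273.H95 (ctr IsCl L)
open Vale.Agent.P273.H681 (XX)

noncomputable section

/-! ### the roots -/

/-- the roots as a function of the model base -/
def btT (p : Pa (Fin 3)) : Bs :=
  H828.th fun k => cexp ((-(p.1 k : ℂ) + (p.2 k : ℂ) * I) / 2)

theorem sq_half (z : ℂ) : cexp (z / 2) ^ 2 = cexp z := by
  rw [← Complex.exp_nat_mul]
  congr 1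
  push_cast
  ring

theorem ff_th (d : Fin 3 → ℂ) (x : ℂ) :
    ff (H828.th d, x) = ∏ k, ((x - ctr k) ^ 2 - d k ^ 2) := by
  have h : ff (H828.th d, x) = (x - (3 / 2 - d 0)) * (x - (3 / 2 + d 0)) * (x - (7 / 2 - d 1)) *
      (x - (7 / 2 + d 1)) * (x - (11 / 2 - d 2)) * (x - (11 / 2 + d 2)) := by
    unfold ff
    rw [Fin.prod_univ_six]
    rfl
  have c0 : ctr 0 = 3 / 2 := by simp [ctr]
  have c1 : ctr 1 = 7 / 2 := by simp [ctr]; norm_num
  have c2 : ctr 2 = 11 / 2 := by simp [ctr]; norm_num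
  rw [h, Fin.prod_univ_three, c0, c1, c2]
  ring

theorem ff_btT (p : Pa (Fin 3)) (x : ℂ) :
    ff (btT p, x) = ∏ l, ((x - ctr l) ^ 2 - ep p l) := by
  unfold btT
  rw [ff_th]
  refine Finset.prod_congr rfl fun l _ => ?_
  rw [sq_half]
  rfl

theorem contDiff_btT : ContDiff ℝ ∞ btT := by
  have h1 : ∀ k : Fin 3, ContDiff ℝ ∞ fun p : Pa (Fin 3) =>
      cexp ((-(p.1 k : ℂ) + (p.2 k : ℂ) * I) / 2) := by
    intro k
    have a1 : ContDiff ℝ ∞ fun p : Pa (Fin 3) => ((p.1 k : ℝ) : ℂ) :=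
      Complex.ofRealCLM.contDiff.comp (by fun_prop)
    have a2 : ContDiff ℝ ∞ fun p : Pa (Fin 3) => ((p.2 k : ℝ) : ℂ) :=
      Complex.ofRealCLM.contDiff.comp (by fun_prop)
    exact ((a1.neg.add (a2.mul contDiff_const)).div_const _).cexp
  unfold btT H828.th
  refine contDiff_pi.2 fun i => ?_
  fin_cases i
  · exact contDiff_const.sub (h1 0)
  · exact contDiff_const.add (h1 0)
  · exact contDiff_const.sub (h1 1)
  · exact contDiff_const.add (h1 1)
  · exact contDiff_const.sub (h1 2)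
  · exact contDiff_const.add (h1 2)

theorem exp_log16 : cexp (-(Real.log 16 : ℂ)) = 1 / 16 := by
  rw [← Complex.ofReal_neg, ← Complex.ofReal_exp, Real.exp_neg, Real.exp_log (by norm_num)]
  push_cast
  norm_num

theorem rootsL_eq (y α : Fin 3 → ℝ) : rootsL y α = btT (ysh y, α) := by
  unfold rootsL btT
  congr 1
  funext k
  rw [← exp_log16, ← Complex.exp_add]
  congr 1
  unfold ysh
  push_cast
  ring

/-! ### the map to the model -/

variable (R : H95.Region) (m : ∀ k, Fin (R.n k + 1))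

theorem emb_eq (p : Co R m) : emb R m p = H732.scl R ((H732.wreg R.n m).psi p) := rfl

/-- the map to the model: the neck mark of rank `i` -/
def mP (k : Fin 3) (i : Fin (R.n k)) (p : Co R m) : Mo :=
  ((ysh p.2.2.1, p.2.2.2.1),
    (Real.log 16 - (H732.wreg.LX R.Cm R.n m k i p).re, (H732.wreg.LX R.Cm R.n m k i p).im))

theorem XN_mP (k : Fin 3) (i : Fin (R.n k)) (p : Co R m) :
    XN (mP R m k i p) = 1 / 16 * cexp (H732.wreg.LX R.Cm R.n m k i p) := by
  rw [XN_eq, ← exp_log16, ← Complex.exp_add]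
  congr 1
  unfold mP
  apply Complex.ext
  · simp
    ring
  · simp

theorem YN_mP (k : Fin 3) (i : Fin (R.n k)) (p : Co R m) :
    YN k (mP R m k i p) = 1 / 16 * cexp (H732.wreg.LY R.Cm R.n m k i p) := by
  have h := H732.wreg.LX_add_LY (C := R.Cm) (m := m) p k i
  have hre := congrArg Complex.re h
  have him := congrArg Complex.im h
  rw [YN_eq, ← exp_log16, ← Complex.exp_add]
  congr 1
  unfold mP ysh
  apply Complex.ext
  · simp at hre ⊢
    linarith
  · simp at him ⊢
    linarith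

variable {R m}

theorem XX_mP {j : L} {k : Fin 3} (h : R.pl j = Sum.inl k) (p : Co R m) :
    R.XX (emb R m p) k (R.rk j) = XN (mP R m k (H562.rkF R h) p) := by
  rw [XN_mP, emb_eq]
  exact H732.XX_scl_psi R m p k (H562.rkF R h)

theorem YY_mP {j : L} {k : Fin 3} (h : R.pl j = Sum.inl k) (p : Co R m) :
    R.YY (emb R m p) k (R.rk j) = YN k (mP R m k (H562.rkF R h) p) := by
  rw [YN_mP, emb_eq]
  exact H732.YY_scl_psi R m p k (H562.rkF R h)

theorem eps_mP {k : Fin 3} (i : Fin (R.n k)) (p : Co R m) :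
    R.eps (emb R m p) = ep (mP R m k i p).1 := by
  funext l
  rw [emb_eq, H732.eps_scl_psi]
  have h := congrFun (H630.eps0_eq p.2.2.1 p.2.2.2.1) l
  exact h

theorem pos_mP {j : L} {k : Fin 3} (h : R.pl j = Sum.inl k) (p : Co R m) :
    R.pos (emb R m p) j = xN ctr k (mP R m k (H562.rkF R h) p) := by
  rw [H732.pos_neck R _ h, XX_mP h, YY_mP h]
  rfl

theorem posj_mP {j : L} {k : Fin 3} (h : R.pl j = Sum.inl k) (p : Co R m) :
    posj R m j p = psN btT ctr k (mP R m k (H562.rkF R h) p) := by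
  refine Prod.ext ?_ ?_
  · exact rootsL_eq _ _
  · exact pos_mP h p

theorem gk_eq (ε : Fin 3 → ℂ) (k : Fin 3) (x : ℂ) :
    H95.gk ε k x = ∏ l ∈ Finset.univ.erase k, rz (ε l) (x - ctr l) := by
  unfold H95.gk
  rw [← Finset.mul_prod_erase Finset.univ _ (Finset.mem_univ k), if_pos rfl, one_mul]
  refine Finset.prod_congr rfl fun l hl => ?_
  rw [if_neg (Finset.ne_of_mem_erase hl)]
  unfold H95.csq rz
  norm_num

theorem shE_mP {j : L} {k : Fin 3} (h : R.pl j = Sum.inl k) (S : L → Bool) (p : Co R m) :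
    shE R m S p j = vN ctr k (mP R m k (H562.rkF R h) p) := by
  unfold shE
  rw [H732.sht_neck R S _ h, pos_mP h, XX_mP h, YY_mP h, gk_eq, eps_mP (H562.rkF R h), vN_eq]
  unfold gN
  rw [mul_div_assoc]

theorem contDiff_mP (k : Fin 3) (i : Fin (R.n k)) : ContDiff ℝ ∞ (mP R m k i) := by
  unfold mP ysh
  have h1 : ContDiff ℝ ∞ fun p : Co R m => (H732.wreg.LX R.Cm R.n m k i p).re :=
    Complex.reCLM.contDiff.comp (H732.wreg.LX R.Cm R.n m k i).contDiff
  have h2 : ContDiff ℝ ∞ fun p : Co R m => (H732.wreg.LX R.Cm R.n m k i p).im :=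
    Complex.imCLM.contDiff.comp (H732.wreg.LX R.Cm R.n m k i).contDiff
  refine ContDiff.prodMk (ContDiff.prodMk ?_ ?_) ((contDiff_const.sub h1).prodMk h2)
  · refine contDiff_pi.2 fun l => ?_
    have h3 : ContDiff ℝ ∞ fun p : Co R m => p.2.2.1 l := by fun_prop
    exact h3.add contDiff_const
  · fun_prop

/-! ### the roots lie in `XX` -/

theorem th_mem_XX {d : Fin 3 → ℂ} (hd : ∀ k, ‖d k‖ < 1) (hs : ∀ k, (d k).re = 0 → (d k).im < 0) :
    H828.th d ∈ XX := by
  have h0 := abs_lt.1 ((Complex.abs_re_le_norm (d 0)).trans_lt (hd 0))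
  have h1 := abs_lt.1 ((Complex.abs_re_le_norm (d 1)).trans_lt (hd 1))
  have h2 := abs_lt.1 ((Complex.abs_re_le_norm (d 2)).trans_lt (hd 2))
  have b0 : H828.th d 0 = 3 / 2 - d 0 := rfl
  have b1 : H828.th d 1 = 3 / 2 + d 0 := rfl
  have b2 : H828.th d 2 = 7 / 2 - d 1 := rfl
  have b3 : H828.th d 3 = 7 / 2 + d 1 := rfl
  have b4 : H828.th d 4 = 11 / 2 - d 2 := rfl
  have b5 : H828.th d 5 = 11 / 2 + d 2 := rfl
  have r32 : ((3 / 2 : ℂ)).re = 3 / 2 := by norm_num
  have r72 : ((7 / 2 : ℂ)).re = 7 / 2 := by norm_num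
  have r112 : ((11 / 2 : ℂ)).re = 11 / 2 := by norm_num
  have i32 : ((3 / 2 : ℂ)).im = 0 := by norm_num
  have i72 : ((7 / 2 : ℂ)).im = 0 := by norm_num
  have i112 : ((11 / 2 : ℂ)).im = 0 := by norm_num
  intro i j hij h
  have key : ∀ i j : Fin 6, i < j → (H828.th d i).re = (H828.th d j).re →
      (H828.th d j).im < (H828.th d i).im := by
    intro i j hij h
    fin_cases i <;> fin_cases j <;>
      first
      | exact absurd hij (by decide)
      | (exfalso
         simp only [Fin.zero_eta, Fin.mk_one, Fin.reduceFinMk, b0, b1, b2, b3, b4, b5,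
           Complex.add_re, Complex.sub_re, r32, r72, r112] at h
         linarith [h0.1, h0.2, h1.1, h1.2, h2.1, h2.2])
      | (simp only [Fin.zero_eta, Fin.mk_one, Fin.reduceFinMk, b0, b1, b2, b3, b4, b5,
           Complex.add_re, Complex.sub_re, Complex.add_im, Complex.sub_im, r32, r72, r112,
           i32, i72, i112] at h ⊢
         have g0 : (d 0).re = 0 → (d 0).im < 0 := hs 0
         have g1 : (d 1).re = 0 → (d 1).im < 0 := hs 1
         have g2 : (d 2).re = 0 → (d 2).im < 0 := hs 2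
         first
         | linarith [g0 (by linarith)]
         | linarith [g1 (by linarith)]
         | linarith [g2 (by linarith)])
  exact key i j hij h

theorem btT_mem_XX {p : Pa (Fin 3)} (hy : ∀ k, 0 < p.1 k) (hα : ∀ k, -7 ≤ p.2 k ∧ p.2 k ≤ 1) :
    btT p ∈ XX := by
  unfold btT
  refine th_mem_XX (fun k => ?_) fun k hk => ?_
  · rw [Complex.norm_exp]
    have e1 : ((-(p.1 k : ℂ) + (p.2 k : ℂ) * I) / 2).re = -(p.1 k) / 2 := by
      simp
    rw [e1, ← Real.exp_zero]
    exact Real.exp_lt_exp.2 (by linarith [hy k])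
  · have e1 : (-(p.1 k : ℂ) + (p.2 k : ℂ) * I) / 2 =
        ((-(p.1 k) / 2 : ℝ) : ℂ) + ((p.2 k / 2 : ℝ) : ℂ) * I := by
      push_cast
      ring
    rw [e1, Complex.exp_add, ← Complex.ofReal_exp, Complex.re_ofReal_mul,
      Complex.exp_ofReal_mul_I_re] at hk
    rw [e1, Complex.exp_add, ← Complex.ofReal_exp, Complex.im_ofReal_mul,
      Complex.exp_ofReal_mul_I_im]
    have h1 := Real.exp_pos (-(p.1 k) / 2)
    have h2 : Real.cos (p.2 k / 2) = 0 := by
      rcases mul_eq_zero.1 hk with h | h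
      · exact absurd h h1.ne'
      · exact h
    refine mul_neg_of_pos_of_neg h1 ?_
    have hpi := Real.pi_gt_three
    have hpi2 := Real.pi_lt_d2
    obtain ⟨g1, g2⟩ := hα k
    -- the half angle is in (-3 pi / 2, pi / 2)
    by_contra hc
    push Not at hc
    by_cases h3 : -(Real.pi / 2) < p.2 k / 2
    · have := Real.cos_pos_of_mem_Ioo (x := p.2 k / 2) ⟨h3, by linarith⟩
      linarith
    · push Not at h3
      have h4 : Real.sin (p.2 k / 2) < 0 := by
        have h5 : Real.sin (p.2 k / 2 + Real.pi) = -Real.sin (p.2 k / 2) := Real.sin_add_pi _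
        by_cases h6 : p.2 k / 2 + Real.pi ≤ 0
        · -- in (-3 pi / 2, -pi]: the cosine is negative
          have h7 : 0 < Real.cos (p.2 k / 2 + Real.pi) := by
            refine Real.cos_pos_of_mem_Ioo ⟨by linarith, by linarith⟩
          rw [Real.cos_add_pi, h2] at h7
          linarith
        · push Not at h6
          have h7 := Real.sin_pos_of_pos_of_lt_pi h6 (by linarith)
          linarith
      linarith

end

end Vale.Agent.P273.H339
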